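import Mathlib

/-!
# P369: matrix identities behind the attenuator flow on mixtures of coherent states
-/

namespace Vale.Agent.P369.Classical

open Matrix

variable {ι : Type*} [Fintype ι]

/-- Real part of the trace of a conjugate transpose. -/
theorem re_trace_star (A : Matrix ι ι ℂ) : (Matrix.trace Aᴴ).re = (Matrix.trace A).re := by
  simp [Matrix.trace_conjTranspose, RCLike.star_def]

/-- The Sylvester operator. -/
def sylv (s : ℝ) (M Y : Matrix ι ι ℂ) : Matrix ι ι ℂ := (s : ℂ) • (M * Y) + ((1 - s : ℝ) : ℂ) • (Y * M)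

/-- The generator, one mode. -/
noncomputable def gen (M Z : Matrix ι ι ℂ) : Matrix ι ι ℂ :=
  -(Zᴴ * M * Z) + ((1/2 : ℝ) : ℂ) • (Zᴴ * Z * M + M * (Zᴴ * Z))

theorem pair_identity {M Y Z : Matrix ι ι ℂ} (hM : Mᴴ = M) (hZ : Z * Zᴴ = Zᴴ * Z) {s : ℝ}
    (c1 : Z * sylv s M Y = sylv s M Y * Z) (c2 : Zᴴ * sylv s M Y = sylv s M Y * Zᴴ) :
    s * (-s * (trace ((gen M Z * Y)ᴴ * (M * M * Y - M * Y * M))).re
        - (1 - s) * (trace ((Y * gen M Z)ᴴ * (M * M * Y - M * Y * M))).re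
        + (trace (Yᴴ * (gen M Z * M * sylv s M Y + M * gen M Z * sylv s M Y
            - gen M Z * sylv s M Y * M - M * sylv s M Y * gen M Z))).re)
      = s * (trace ((Z * Yᴴ * M - Yᴴ * M * Z)ᴴ * M * (Z * Yᴴ * M - Yᴴ * M * Z))).re
        + (1 - s) * (trace ((Z * Y * M - Y * M * Z)ᴴ * M * (Z * Y * M - Y * M * Z))).re := by
  have hZ' : ∀ X, Z * (Zᴴ * X) = Zᴴ * (Z * X) := fun X => by rw [← mul_assoc, hZ, mul_assoc]
  have c3 : Zᴴ * Z * sylv s M Y = sylv s M Y * (Zᴴ * Z) := by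
    rw [mul_assoc, c1, ← mul_assoc, c2, mul_assoc]
  have n1 : (trace (Yᴴ * M * M * (Zᴴ * Z * sylv s M Y - sylv s M Y * (Zᴴ * Z)))).re = 0 := by simp [c3]
  have n2 : (trace (M * Yᴴ * M * (Zᴴ * Z * sylv s M Y - sylv s M Y * (Zᴴ * Z)))).re = 0 := by simp [c3]
  have z1 : (trace (M * Yᴴ * Zᴴ * M * (Z * sylv s M Y - sylv s M Y * Z))).re = 0 := by simp [c1]
  have z2 : (trace (Yᴴ * M * Zᴴ * M * (Z * sylv s M Y - sylv s M Y * Z))).re = 0 := by simp [c1]
  have z3 : (trace (Zᴴ * M * Yᴴ * M * (Z * sylv s M Y - sylv s M Y * Z))).re = 0 := by simp [c1]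
  have z4 : (trace (Zᴴ * Yᴴ * M * M * (Z * sylv s M Y - sylv s M Y * Z))).re = 0 := by simp [c1]
  have w0 : (Matrix.trace (M * (Y * (Zᴴ * (M * (Z * (Yᴴ * (M)))))))).re = (Matrix.trace (M * (M * (Y * (Zᴴ * (M * (Z * (Yᴴ)))))))).re := by
    have e := congrArg Complex.re (Matrix.trace_mul_comm (M * Y * Zᴴ * M * Z * Yᴴ) (M))
    simp only [mul_assoc, hZ, hZ'] at e
    exact e
  have w1 : (Matrix.trace (M * (Y * (Zᴴ * (M * (Yᴴ * (M * (Z)))))))).re = (Matrix.trace (M * (Y * (M * (Z * (Yᴴ * (M * (Zᴴ)))))))).re := by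
    rw [← re_trace_star (M * (Y * (Zᴴ * (M * (Yᴴ * (M * (Z)))))))]
    simp only [Matrix.conjTranspose_mul, Matrix.conjTranspose_conjTranspose, hM, mul_assoc, hZ, hZ']
    have e := congrArg Complex.re (Matrix.trace_mul_comm (Zᴴ) (M * Y * M * Z * Yᴴ * M))
    simp only [mul_assoc, hZ, hZ'] at e
    exact e
  have w2 : (Matrix.trace (M * (Yᴴ * (M * (M * (Y * (Zᴴ * (Z)))))))).re = (Matrix.trace (M * (M * (Y * (M * (Zᴴ * (Z * (Yᴴ)))))))).re := by
    rw [← re_trace_star (M * (Yᴴ * (M * (M * (Y * (Zᴴ * (Z)))))))]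
    simp only [Matrix.conjTranspose_mul, Matrix.conjTranspose_conjTranspose, hM, mul_assoc, hZ, hZ']
    have e := congrArg Complex.re (Matrix.trace_mul_comm (Zᴴ * Z * Yᴴ) (M * M * Y * M))
    simp only [mul_assoc, hZ, hZ'] at e
    exact e
  have w3 : (Matrix.trace (M * (Yᴴ * (M * (Y * (M * (Zᴴ * (Z)))))))).re = (Matrix.trace (M * (Y * (M * (Zᴴ * (Z * (M * (Yᴴ)))))))).re := by
    have e := congrArg Complex.re (Matrix.trace_mul_comm (M * Yᴴ) (M * Y * M * Zᴴ * Z))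
    simp only [mul_assoc, hZ, hZ'] at e
    exact e
  have w4 : (Matrix.trace (M * (Yᴴ * (M * (Zᴴ * (Z * (M * (Y)))))))).re = (Matrix.trace (M * (Y * (M * (Yᴴ * (M * (Zᴴ * (Z)))))))).re := by
    have e := congrArg Complex.re (Matrix.trace_mul_comm (M * Yᴴ * M * Zᴴ * Z) (M * Y))
    simp only [mul_assoc, hZ, hZ'] at e
    exact e
  have w5 : (Matrix.trace (M * (Yᴴ * (M * (Zᴴ * (Z * (Y * (M)))))))).re = (Matrix.trace (M * (M * (Yᴴ * (M * (Zᴴ * (Z * (Y)))))))).re := by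
    have e := congrArg Complex.re (Matrix.trace_mul_comm (M * Yᴴ * M * Zᴴ * Z * Y) (M))
    simp only [mul_assoc, hZ, hZ'] at e
    exact e
  have w6 : (Matrix.trace (M * (Yᴴ * (Zᴴ * (M * (M * (Y * (Z)))))))).re = (Matrix.trace (M * (M * (Y * (Z * (M * (Yᴴ * (Zᴴ)))))))).re := by
    have e := congrArg Complex.re (Matrix.trace_mul_comm (M * Yᴴ * Zᴴ) (M * M * Y * Z))
    simp only [mul_assoc, hZ, hZ'] at e
    exact e
  have w7 : (Matrix.trace (M * (Yᴴ * (Zᴴ * (M * (Y * (M * (Z)))))))).re = (Matrix.trace (M * (Y * (M * (Z * (M * (Yᴴ * (Zᴴ)))))))).re := by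
    have e := congrArg Complex.re (Matrix.trace_mul_comm (M * Yᴴ * Zᴴ) (M * Y * M * Z))
    simp only [mul_assoc, hZ, hZ'] at e
    exact e
  have w8 : (Matrix.trace (M * (Yᴴ * (Zᴴ * (M * (Z * (M * (Y)))))))).re = (Matrix.trace (M * (Y * (M * (Yᴴ * (Zᴴ * (M * (Z)))))))).re := by
    have e := congrArg Complex.re (Matrix.trace_mul_comm (M * Yᴴ * Zᴴ * M * Z) (M * Y))
    simp only [mul_assoc, hZ, hZ'] at e
    exact e
  have w9 : (Matrix.trace (M * (Yᴴ * (Zᴴ * (M * (Z * (Y * (M)))))))).re = (Matrix.trace (M * (M * (Yᴴ * (Zᴴ * (M * (Z * (Y)))))))).re := by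
    have e := congrArg Complex.re (Matrix.trace_mul_comm (M * Yᴴ * Zᴴ * M * Z * Y) (M))
    simp only [mul_assoc, hZ, hZ'] at e
    exact e
  have w10 : (Matrix.trace (M * (Zᴴ * (Z * (Yᴴ * (M * (M * (Y)))))))).re = (Matrix.trace (M * (M * (Y * (M * (Zᴴ * (Z * (Yᴴ)))))))).re := by
    have e := congrArg Complex.re (Matrix.trace_mul_comm (M * Zᴴ * Z * Yᴴ) (M * M * Y))
    simp only [mul_assoc, hZ, hZ'] at e
    exact e
  have w11 : (Matrix.trace (M * (Zᴴ * (Z * (Yᴴ * (M * (Y * (M)))))))).re = (Matrix.trace (M * (M * (Yᴴ * (M * (Y * (Zᴴ * (Z)))))))).re := by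
    rw [← re_trace_star (M * (Zᴴ * (Z * (Yᴴ * (M * (Y * (M)))))))]
    simp only [Matrix.conjTranspose_mul, Matrix.conjTranspose_conjTranspose, hM, mul_assoc, hZ, hZ']
    have e := congrArg Complex.re (Matrix.trace_mul_comm (M * Yᴴ * M * Y * Zᴴ * Z) (M))
    simp only [mul_assoc, hZ, hZ'] at e
    exact e
  have w12 : (Matrix.trace (Yᴴ * (M * (M * (M * (Y * (Zᴴ * (Z)))))))).re = (Matrix.trace (M * (M * (M * (Y * (Zᴴ * (Z * (Yᴴ)))))))).re := by
    have e := congrArg Complex.re (Matrix.trace_mul_comm (Yᴴ) (M * M * M * Y * Zᴴ * Z))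
    simp only [mul_assoc, hZ, hZ'] at e
    exact e
  have w13 : (Matrix.trace (Yᴴ * (M * (M * (Y * (M * (Zᴴ * (Z)))))))).re = (Matrix.trace (M * (M * (Y * (M * (Zᴴ * (Z * (Yᴴ)))))))).re := by
    have e := congrArg Complex.re (Matrix.trace_mul_comm (Yᴴ) (M * M * Y * M * Zᴴ * Z))
    simp only [mul_assoc, hZ, hZ'] at e
    exact e
  have w14 : (Matrix.trace (Yᴴ * (M * (M * (Y * (Zᴴ * (M * (Z)))))))).re = (Matrix.trace (M * (M * (Y * (Zᴴ * (M * (Z * (Yᴴ)))))))).re := by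
    have e := congrArg Complex.re (Matrix.trace_mul_comm (Yᴴ) (M * M * Y * Zᴴ * M * Z))
    simp only [mul_assoc, hZ, hZ'] at e
    exact e
  have w15 : (Matrix.trace (Yᴴ * (M * (M * (Y * (Zᴴ * (Z * (M)))))))).re = (Matrix.trace (M * (M * (Y * (M * (Zᴴ * (Z * (Yᴴ)))))))).re := by
    rw [← re_trace_star (Yᴴ * (M * (M * (Y * (Zᴴ * (Z * (M)))))))]
    simp only [Matrix.conjTranspose_mul, Matrix.conjTranspose_conjTranspose, hM, mul_assoc, hZ, hZ']
    have e := congrArg Complex.re (Matrix.trace_mul_comm (M * Zᴴ * Z * Yᴴ) (M * M * Y))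
    simp only [mul_assoc, hZ, hZ'] at e
    exact e
  have w16 : (Matrix.trace (Yᴴ * (M * (M * (Zᴴ * (Z * (M * (Y)))))))).re = (Matrix.trace (M * (M * (Y * (Yᴴ * (M * (Zᴴ * (Z)))))))).re := by
    rw [← re_trace_star (Yᴴ * (M * (M * (Zᴴ * (Z * (M * (Y)))))))]
    simp only [Matrix.conjTranspose_mul, Matrix.conjTranspose_conjTranspose, hM, mul_assoc, hZ, hZ']
    have e := congrArg Complex.re (Matrix.trace_mul_comm (Yᴴ * M * Zᴴ * Z) (M * M * Y))
    simp only [mul_assoc, hZ, hZ'] at e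
    exact e
  have w17 : (Matrix.trace (Yᴴ * (M * (M * (Zᴴ * (Z * (Y * (M)))))))).re = (Matrix.trace (M * (M * (Y * (M * (Yᴴ * (Zᴴ * (Z)))))))).re := by
    rw [← re_trace_star (Yᴴ * (M * (M * (Zᴴ * (Z * (Y * (M)))))))]
    simp only [Matrix.conjTranspose_mul, Matrix.conjTranspose_conjTranspose, hM, mul_assoc, hZ, hZ']
    have e := congrArg Complex.re (Matrix.trace_mul_comm (M * Yᴴ * Zᴴ * Z) (M * M * Y))
    simp only [mul_assoc, hZ, hZ'] at e
    exact e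
  have w18 : (Matrix.trace (Yᴴ * (M * (Y * (M * (M * (Zᴴ * (Z)))))))).re = (Matrix.trace (M * (M * (Yᴴ * (M * (Y * (Zᴴ * (Z)))))))).re := by
    rw [← re_trace_star (Yᴴ * (M * (Y * (M * (M * (Zᴴ * (Z)))))))]
    simp only [Matrix.conjTranspose_mul, Matrix.conjTranspose_conjTranspose, hM, mul_assoc, hZ, hZ']
    have e := congrArg Complex.re (Matrix.trace_mul_comm (Zᴴ * Z) (M * M * Yᴴ * M * Y))
    simp only [mul_assoc, hZ, hZ'] at e
    exact e
  have w19 : (Matrix.trace (Yᴴ * (M * (Y * (M * (Zᴴ * (M * (Z)))))))).re = (Matrix.trace (M * (Y * (M * (Zᴴ * (M * (Z * (Yᴴ)))))))).re := by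
    have e := congrArg Complex.re (Matrix.trace_mul_comm (Yᴴ) (M * Y * M * Zᴴ * M * Z))
    simp only [mul_assoc, hZ, hZ'] at e
    exact e
  have w20 : (Matrix.trace (Yᴴ * (M * (Y * (M * (Zᴴ * (Z * (M)))))))).re = (Matrix.trace (M * (Y * (M * (Zᴴ * (Z * (M * (Yᴴ)))))))).re := by
    have e := congrArg Complex.re (Matrix.trace_mul_comm (Yᴴ) (M * Y * M * Zᴴ * Z * M))
    simp only [mul_assoc, hZ, hZ'] at e
    exact e
  have w21 : (Matrix.trace (Yᴴ * (M * (Zᴴ * (M * (M * (Y * (Z)))))))).re = (Matrix.trace (M * (M * (Y * (Z * (Yᴴ * (M * (Zᴴ)))))))).re := by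
    have e := congrArg Complex.re (Matrix.trace_mul_comm (Yᴴ * M * Zᴴ) (M * M * Y * Z))
    simp only [mul_assoc, hZ, hZ'] at e
    exact e
  have w22 : (Matrix.trace (Yᴴ * (M * (Zᴴ * (M * (Y * (M * (Z)))))))).re = (Matrix.trace (M * (Y * (M * (Z * (Yᴴ * (M * (Zᴴ)))))))).re := by
    have e := congrArg Complex.re (Matrix.trace_mul_comm (Yᴴ * M * Zᴴ) (M * Y * M * Z))
    simp only [mul_assoc, hZ, hZ'] at e
    exact e
  have w23 : (Matrix.trace (Yᴴ * (M * (Zᴴ * (M * (Z * (M * (Y)))))))).re = (Matrix.trace (M * (Y * (Yᴴ * (M * (Zᴴ * (M * (Z)))))))).re := by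
    have e := congrArg Complex.re (Matrix.trace_mul_comm (Yᴴ * M * Zᴴ * M * Z) (M * Y))
    simp only [mul_assoc, hZ, hZ'] at e
    exact e
  have w24 : (Matrix.trace (Yᴴ * (M * (Zᴴ * (M * (Z * (Y * (M)))))))).re = (Matrix.trace (M * (Y * (M * (Yᴴ * (Zᴴ * (M * (Z)))))))).re := by
    rw [← re_trace_star (Yᴴ * (M * (Zᴴ * (M * (Z * (Y * (M)))))))]
    simp only [Matrix.conjTranspose_mul, Matrix.conjTranspose_conjTranspose, hM, mul_assoc, hZ, hZ']
    have e := congrArg Complex.re (Matrix.trace_mul_comm (M * Yᴴ * Zᴴ * M * Z) (M * Y))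
    simp only [mul_assoc, hZ, hZ'] at e
    exact e
  have w25 : (Matrix.trace (Yᴴ * (M * (Zᴴ * (Z * (M * (M * (Y)))))))).re = (Matrix.trace (M * (M * (Y * (Yᴴ * (M * (Zᴴ * (Z)))))))).re := by
    have e := congrArg Complex.re (Matrix.trace_mul_comm (Yᴴ * M * Zᴴ * Z) (M * M * Y))
    simp only [mul_assoc, hZ, hZ'] at e
    exact e
  have w26 : (Matrix.trace (Yᴴ * (M * (Zᴴ * (Z * (M * (Y * (M)))))))).re = (Matrix.trace (M * (Y * (M * (Yᴴ * (M * (Zᴴ * (Z)))))))).re := by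
    have e := congrArg Complex.re (Matrix.trace_mul_comm (Yᴴ * M * Zᴴ * Z) (M * Y * M))
    simp only [mul_assoc, hZ, hZ'] at e
    exact e
  have w27 : (Matrix.trace (Yᴴ * (M * (Zᴴ * (Z * (Y * (M * (M)))))))).re = (Matrix.trace (M * (M * (Yᴴ * (M * (Zᴴ * (Z * (Y)))))))).re := by
    have e := congrArg Complex.re (Matrix.trace_mul_comm (Yᴴ * M * Zᴴ * Z * Y) (M * M))
    simp only [mul_assoc, hZ, hZ'] at e
    exact e
  have w28 : (Matrix.trace (Yᴴ * (Zᴴ * (M * (Z * (M * (M * (Y)))))))).re = (Matrix.trace (M * (M * (Y * (Yᴴ * (Zᴴ * (M * (Z)))))))).re := by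
    have e := congrArg Complex.re (Matrix.trace_mul_comm (Yᴴ * Zᴴ * M * Z) (M * M * Y))
    simp only [mul_assoc, hZ, hZ'] at e
    exact e
  have w29 : (Matrix.trace (Yᴴ * (Zᴴ * (M * (Z * (M * (Y * (M)))))))).re = (Matrix.trace (M * (Y * (M * (Yᴴ * (Zᴴ * (M * (Z)))))))).re := by
    have e := congrArg Complex.re (Matrix.trace_mul_comm (Yᴴ * Zᴴ * M * Z) (M * Y * M))
    simp only [mul_assoc, hZ, hZ'] at e
    exact e
  have w30 : (Matrix.trace (Yᴴ * (Zᴴ * (M * (Z * (Y * (M * (M)))))))).re = (Matrix.trace (M * (M * (Yᴴ * (Zᴴ * (M * (Z * (Y)))))))).re := by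
    have e := congrArg Complex.re (Matrix.trace_mul_comm (Yᴴ * Zᴴ * M * Z * Y) (M * M))
    simp only [mul_assoc, hZ, hZ'] at e
    exact e
  have w31 : (Matrix.trace (Yᴴ * (Zᴴ * (Z * (M * (M * (M * (Y)))))))).re = (Matrix.trace (M * (M * (M * (Y * (Yᴴ * (Zᴴ * (Z)))))))).re := by
    have e := congrArg Complex.re (Matrix.trace_mul_comm (Yᴴ * Zᴴ * Z) (M * M * M * Y))
    simp only [mul_assoc, hZ, hZ'] at e
    exact e
  have w32 : (Matrix.trace (Yᴴ * (Zᴴ * (Z * (M * (M * (Y * (M)))))))).re = (Matrix.trace (M * (M * (Y * (M * (Yᴴ * (Zᴴ * (Z)))))))).re := by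
    have e := congrArg Complex.re (Matrix.trace_mul_comm (Yᴴ * Zᴴ * Z) (M * M * Y * M))
    simp only [mul_assoc, hZ, hZ'] at e
    exact e
  have w33 : (Matrix.trace (Yᴴ * (Zᴴ * (Z * (M * (Y * (M * (M)))))))).re = (Matrix.trace (M * (M * (Yᴴ * (M * (Zᴴ * (Z * (Y)))))))).re := by
    rw [← re_trace_star (Yᴴ * (Zᴴ * (Z * (M * (Y * (M * (M)))))))]
    simp only [Matrix.conjTranspose_mul, Matrix.conjTranspose_conjTranspose, hM, mul_assoc, hZ, hZ']
  have w34 : (Matrix.trace (Zᴴ * (M * (Y * (M * (Z * (Yᴴ * (M)))))))).re = (Matrix.trace (M * (Y * (M * (Z * (Yᴴ * (M * (Zᴴ)))))))).re := by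
    have e := congrArg Complex.re (Matrix.trace_mul_comm (Zᴴ) (M * Y * M * Z * Yᴴ * M))
    simp only [mul_assoc, hZ, hZ'] at e
    exact e
  have w35 : (Matrix.trace (Zᴴ * (M * (Y * (M * (Yᴴ * (M * (Z)))))))).re = (Matrix.trace (M * (Y * (M * (Yᴴ * (M * (Zᴴ * (Z)))))))).re := by
    have e := congrArg Complex.re (Matrix.trace_mul_comm (Zᴴ) (M * Y * M * Yᴴ * M * Z))
    simp only [mul_assoc, hZ, hZ'] at e
    exact e
  have w36 : (Matrix.trace (Zᴴ * (M * (Z * (Yᴴ * (M * (M * (Y)))))))).re = (Matrix.trace (M * (M * (Y * (Zᴴ * (M * (Z * (Yᴴ)))))))).re := by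
    have e := congrArg Complex.re (Matrix.trace_mul_comm (Zᴴ * M * Z * Yᴴ) (M * M * Y))
    simp only [mul_assoc, hZ, hZ'] at e
    exact e
  have w37 : (Matrix.trace (Zᴴ * (M * (Z * (Yᴴ * (M * (Y * (M)))))))).re = (Matrix.trace (M * (Y * (M * (Zᴴ * (M * (Z * (Yᴴ)))))))).re := by
    have e := congrArg Complex.re (Matrix.trace_mul_comm (Zᴴ * M * Z * Yᴴ) (M * Y * M))
    simp only [mul_assoc, hZ, hZ'] at e
    exact e
  have w38 : (Matrix.trace (Zᴴ * (M * (Yᴴ * (M * (M * (Y * (Z)))))))).re = (Matrix.trace (M * (M * (Y * (M * (Zᴴ * (Z * (Yᴴ)))))))).re := by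
    rw [← re_trace_star (Zᴴ * (M * (Yᴴ * (M * (M * (Y * (Z)))))))]
    simp only [Matrix.conjTranspose_mul, Matrix.conjTranspose_conjTranspose, hM, mul_assoc, hZ, hZ']
    have e := congrArg Complex.re (Matrix.trace_mul_comm (Zᴴ * Yᴴ) (M * M * Y * M * Z))
    simp only [mul_assoc, hZ, hZ'] at e
    exact e
  have w39 : (Matrix.trace (Zᴴ * (M * (Yᴴ * (M * (Y * (M * (Z)))))))).re = (Matrix.trace (M * (Y * (M * (Zᴴ * (Z * (M * (Yᴴ)))))))).re := by
    have e := congrArg Complex.re (Matrix.trace_mul_comm (Zᴴ * M * Yᴴ) (M * Y * M * Z))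
    simp only [mul_assoc, hZ, hZ'] at e
    exact e
  have w40 : (Matrix.trace (Zᴴ * (M * (Yᴴ * (M * (Z * (M * (Y)))))))).re = (Matrix.trace (M * (Y * (M * (Z * (Yᴴ * (M * (Zᴴ)))))))).re := by
    rw [← re_trace_star (Zᴴ * (M * (Yᴴ * (M * (Z * (M * (Y)))))))]
    simp only [Matrix.conjTranspose_mul, Matrix.conjTranspose_conjTranspose, hM, mul_assoc, hZ, hZ']
    have e := congrArg Complex.re (Matrix.trace_mul_comm (Yᴴ * M * Zᴴ) (M * Y * M * Z))
    simp only [mul_assoc, hZ, hZ'] at e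
    exact e
  have w41 : (Matrix.trace (Zᴴ * (M * (Yᴴ * (M * (Z * (Y * (M)))))))).re = (Matrix.trace (M * (Y * (M * (Z * (M * (Yᴴ * (Zᴴ)))))))).re := by
    rw [← re_trace_star (Zᴴ * (M * (Yᴴ * (M * (Z * (Y * (M)))))))]
    simp only [Matrix.conjTranspose_mul, Matrix.conjTranspose_conjTranspose, hM, mul_assoc, hZ, hZ']
    have e := congrArg Complex.re (Matrix.trace_mul_comm (M * Yᴴ * Zᴴ) (M * Y * M * Z))
    simp only [mul_assoc, hZ, hZ'] at e
    exact e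
  have w42 : (Matrix.trace (Zᴴ * (Z * (M * (Yᴴ * (M * (M * (Y)))))))).re = (Matrix.trace (M * (M * (Y * (M * (Zᴴ * (Z * (Yᴴ)))))))).re := by
    rw [← re_trace_star (Zᴴ * (Z * (M * (Yᴴ * (M * (M * (Y)))))))]
    simp only [Matrix.conjTranspose_mul, Matrix.conjTranspose_conjTranspose, hM, mul_assoc, hZ, hZ']
    have e := congrArg Complex.re (Matrix.trace_mul_comm (Yᴴ) (M * M * Y * M * Zᴴ * Z))
    simp only [mul_assoc, hZ, hZ'] at e
    exact e
  have w43 : (Matrix.trace (Zᴴ * (Z * (M * (Yᴴ * (M * (Y * (M)))))))).re = (Matrix.trace (M * (Y * (M * (Zᴴ * (Z * (M * (Yᴴ)))))))).re := by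
    have e := congrArg Complex.re (Matrix.trace_mul_comm (Zᴴ * Z * M * Yᴴ) (M * Y * M))
    simp only [mul_assoc, hZ, hZ'] at e
    exact e
  have w44 : (Matrix.trace (Zᴴ * (Yᴴ * (M * (M * (M * (Y * (Z)))))))).re = (Matrix.trace (M * (M * (M * (Y * (Zᴴ * (Z * (Yᴴ)))))))).re := by
    have e := congrArg Complex.re (Matrix.trace_mul_comm (Zᴴ * Yᴴ) (M * M * M * Y * Z))
    simp only [mul_assoc, hZ, hZ'] at e
    exact e
  have w45 : (Matrix.trace (Zᴴ * (Yᴴ * (M * (M * (Y * (M * (Z)))))))).re = (Matrix.trace (M * (M * (Y * (M * (Zᴴ * (Z * (Yᴴ)))))))).re := by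
    have e := congrArg Complex.re (Matrix.trace_mul_comm (Zᴴ * Yᴴ) (M * M * Y * M * Z))
    simp only [mul_assoc, hZ, hZ'] at e
    exact e
  have w46 : (Matrix.trace (Zᴴ * (Yᴴ * (M * (M * (Z * (M * (Y)))))))).re = (Matrix.trace (M * (M * (Y * (Z * (Yᴴ * (M * (Zᴴ)))))))).re := by
    rw [← re_trace_star (Zᴴ * (Yᴴ * (M * (M * (Z * (M * (Y)))))))]
    simp only [Matrix.conjTranspose_mul, Matrix.conjTranspose_conjTranspose, hM, mul_assoc, hZ, hZ']
    have e := congrArg Complex.re (Matrix.trace_mul_comm (Yᴴ * M * Zᴴ) (M * M * Y * Z))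
    simp only [mul_assoc, hZ, hZ'] at e
    exact e
  have w47 : (Matrix.trace (Zᴴ * (Yᴴ * (M * (M * (Z * (Y * (M)))))))).re = (Matrix.trace (M * (M * (Y * (Z * (M * (Yᴴ * (Zᴴ)))))))).re := by
    rw [← re_trace_star (Zᴴ * (Yᴴ * (M * (M * (Z * (Y * (M)))))))]
    simp only [Matrix.conjTranspose_mul, Matrix.conjTranspose_conjTranspose, hM, mul_assoc, hZ, hZ']
    have e := congrArg Complex.re (Matrix.trace_mul_comm (M * Yᴴ * Zᴴ) (M * M * Y * Z))
    simp only [mul_assoc, hZ, hZ'] at e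
    exact e
  simp only [sylv, gen, Matrix.conjTranspose_mul, Matrix.conjTranspose_sub, Matrix.conjTranspose_add,
    Matrix.conjTranspose_neg, Matrix.conjTranspose_smul, Matrix.conjTranspose_conjTranspose,
    RCLike.star_def, Complex.conj_ofReal, hM, mul_add, add_mul, mul_sub, sub_mul, mul_neg, neg_mul,
    mul_smul_comm, smul_mul_assoc, smul_add, smul_sub, smul_neg, smul_smul, mul_assoc, hZ, hZ',
    Matrix.trace_add, Matrix.trace_sub, Matrix.trace_neg, Matrix.trace_smul, smul_eq_mul,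
    Complex.add_re, Complex.sub_re, Complex.neg_re, Complex.re_ofReal_mul, ← Complex.ofReal_mul,
    w0, w1, w2, w3, w4, w5, w6, w7, w8, w9, w10, w11, w12, w13, w14, w15, w16, w17, w18, w19, w20, w21, w22, w23, w24, w25, w26, w27, w28, w29, w30, w31, w32, w33, w34, w35, w36, w37, w38, w39, w40, w41, w42, w43, w44, w45, w46, w47] at n1 n2 z1 z2 z3 z4 ⊢
  linear_combination s * n1 - s * n2 - (1 - s) * z1 - s * z2 + (1 + s) * z3 - s * z4

end Vale.Agent.P369.Classical
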