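import Mathlib

/-!
# P369: a displaced number operator dominates the complement of the vacuum, on coherent combinations
-/

namespace Vale.Agent.P369.Classical

open scoped ComplexConjugate
open Finset

variable {ι κ : Type*} [Fintype ι] [Fintype κ]

/-- Powers of a Gram matrix are positive semidefinite. -/
theorem gram_pow_nonneg (e : ι → ℂ) (d : κ → ι → ℂ) (m : ℕ) :
    0 ≤ (∑ p, ∑ q, conj (e p) * e q * (∑ k, conj (d k p) * d k q) ^ m).re := by
  classical
  have h : ∑ p, ∑ q, conj (e p) * e q * (∑ k, conj (d k p) * d k q) ^ m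
      = ∑ t : Fin m → κ, ((Complex.normSq (∑ q, e q * ∏ i, d (t i) q) : ℝ) : ℂ) := by
    simp only [Fintype.sum_pow, Finset.mul_sum, Complex.normSq_eq_conj_mul_self, map_sum, map_mul,
      map_prod, Finset.sum_mul, Finset.prod_mul_distrib]
    rw [Finset.sum_congr rfl fun p _ => Finset.sum_comm, Finset.sum_comm]
    refine Finset.sum_congr rfl fun t _ => ?_
    rw [Finset.sum_comm]
    exact Finset.sum_congr rfl fun q _ => Finset.sum_congr rfl fun p _ => by ring
  rw [h, Complex.re_sum]
  exact Finset.sum_nonneg fun t _ => by simpa using Complex.normSq_nonneg _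

/-- The series of `K exp K - exp K + 1` has nonnegative coefficients. -/
theorem hasSum_kernel (K : ℂ) :
    HasSum (fun m : ℕ => ((((m : ℝ) - 1) / m.factorial + if m = 0 then 1 else 0 : ℝ) : ℂ) * K ^ m)
      (K * Complex.exp K - Complex.exp K + 1) := by
  have h : HasSum (fun m : ℕ => K ^ m / m.factorial) (Complex.exp K) := by
    rw [Complex.exp_eq_exp_ℂ]
    exact NormedSpace.expSeries_div_hasSum_exp K
  have h1 : HasSum (fun m : ℕ => (m : ℂ) * (K ^ m / m.factorial)) (K * Complex.exp K) := by
    rw [← hasSum_nat_add_iff' 1]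
    simp only [Finset.range_one, Finset.sum_singleton, Nat.cast_zero, zero_mul, sub_zero]
    refine (h.mul_left K).congr_fun fun m => ?_
    have hm : (m.factorial : ℂ) ≠ 0 := Nat.cast_ne_zero.2 m.factorial_ne_zero
    have hm' : (m : ℂ) + 1 ≠ 0 := by exact_mod_cast Nat.succ_ne_zero m
    rw [Nat.factorial_succ, pow_succ]
    push_cast
    field_simp
  refine ((h1.sub h).add (hasSum_ite_eq 0 (1 : ℂ))).congr_fun fun m => ?_
  rcases eq_or_ne m 0 with rfl | hm
  · simp
  · simp only [hm, if_false, add_zero]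
    push_cast
    ring

theorem kernel_coeff_nonneg (m : ℕ) :
    0 ≤ ((m : ℝ) - 1) / m.factorial + (if m = 0 then 1 else 0 : ℝ) := by
  rcases eq_or_ne m 0 with rfl | hm
  · simp
  · have : (1 : ℝ) ≤ m := Nat.one_le_cast.2 (Nat.pos_of_ne_zero hm)
    simp only [hm, if_false, add_zero]
    exact div_nonneg (by linarith) (Nat.cast_nonneg _)

/-- `∑ ē e exp K ≤ ∑ ē e K exp K + |∑ e|²` for a Gram kernel `K`. -/
theorem gram_exp_le (e : ι → ℂ) (d : κ → ι → ℂ) :
    (∑ p, ∑ q, conj (e p) * e q * Complex.exp (∑ k, conj (d k p) * d k q)).re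
      ≤ (∑ p, ∑ q, conj (e p) * e q
          * ((∑ k, conj (d k p) * d k q) * Complex.exp (∑ k, conj (d k p) * d k q))).re
        + Complex.normSq (∑ q, e q) := by
  obtain ⟨K, hK⟩ : ∃ K : ι → ι → ℂ, K = fun p q => ∑ k, conj (d k p) * d k q := ⟨_, rfl⟩
  have hs : HasSum (fun m : ℕ => ((((m : ℝ) - 1) / m.factorial + if m = 0 then 1 else 0 : ℝ) : ℂ)
      * ∑ p, ∑ q, conj (e p) * e q * K p q ^ m)
      (∑ p, ∑ q, conj (e p) * e q * (K p q * Complex.exp (K p q) - Complex.exp (K p q) + 1)) := by
    refine (hasSum_sum fun p _ => hasSum_sum fun q _ =>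
      (hasSum_kernel (K p q)).mul_left (conj (e p) * e q)).congr_fun fun m => ?_
    simp only [Finset.mul_sum]
    exact Finset.sum_congr rfl fun p _ => Finset.sum_congr rfl fun q _ => by ring
  have h0 : 0 ≤ (∑ p, ∑ q, conj (e p) * e q
      * (K p q * Complex.exp (K p q) - Complex.exp (K p q) + 1)).re := by
    refine (Complex.reCLM.hasSum hs).nonneg fun m => ?_
    simp only [Complex.reCLM_apply, Complex.re_ofReal_mul]
    exact mul_nonneg (kernel_coeff_nonneg m) (hK ▸ gram_pow_nonneg e d m)
  have hn : (Complex.normSq (∑ q, e q) : ℂ) = ∑ p, ∑ q, conj (e p) * e q := by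
    rw [Complex.normSq_eq_conj_mul_self, map_sum, Finset.sum_mul]
    exact Finset.sum_congr rfl fun p _ => by rw [Finset.mul_sum]
  have hn' := congrArg Complex.re hn
  simp only [Complex.ofReal_re] at hn'
  simp only [mul_add, mul_sub, mul_one, Finset.sum_add_distrib, Finset.sum_sub_distrib,
    Complex.add_re, Complex.sub_re] at h0
  subst hK
  linarith

end Vale.Agent.P369.Classical
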