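import Mathlib
import Vale.Agent.P369.Classical.Alg
import Vale.Agent.P369.Classical.Key

/-!
# P369: the two pointwise differential inequalities for coherent mixtures
-/

namespace Vale.Agent.P369.Classical

open Matrix
open scoped ComplexConjugate ComplexOrder

variable {ι : Type*} [Fintype ι] [DecidableEq ι] {n : ℕ}

/-- The matrix paired with `Y` to give the Fisher gap. -/
def wmat (M Z : Matrix ι ι ℂ) : Matrix ι ι ℂ := M * M * Z - M * Z * M

/-- The Fisher gap of one mode. -/
def gap (M Y Z : Matrix ι ι ℂ) : ℝ := (trace (Yᴴ * wmat M Z)).re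

/-- The weighted square norm of a commutator. -/
def nsq (M U : Matrix ι ι ℂ) : ℝ := (trace (Uᴴ * M * U)).re

/-- The kernel identity of a Gram matrix of weighted coherent vectors at the points `z`. -/
def IsCoherent (M : Matrix ι ι ℂ) (z : Fin n → ι → ℂ) : Prop :=
  ∀ l p q, M p q * M l l
    = M p l * M l q * Complex.exp (∑ k, conj (z k p - z k l) * (z k q - z k l))

/-- The quadratic form of `M`. -/
def qf (M : Matrix ι ι ℂ) (c : ι → ℂ) : ℝ := (∑ p, ∑ q, conj (c p) * M p q * c q).re

omit [DecidableEq ι] in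
theorem nsq_eq (M U : Matrix ι ι ℂ) : nsq M U = ∑ l, qf M fun p => U p l := by
  simp only [nsq, qf, trace, diag_apply, Matrix.mul_apply, conjTranspose_apply, Complex.re_sum,
    Finset.sum_mul, RCLike.star_def]
  exact Finset.sum_congr rfl fun l _ => Finset.sum_comm

omit [DecidableEq ι] in
theorem qf_nonneg {M : Matrix ι ι ℂ} (hM : M.PosSemidef) (c : ι → ℂ) : 0 ≤ qf M c := by
  have h := hM.dotProduct_mulVec_nonneg c
  simp only [dotProduct, mulVec, Pi.star_apply, RCLike.star_def, Finset.mul_sum] at h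
  simpa [qf, mul_assoc] using (Complex.le_def.1 h).1

omit [DecidableEq ι] in
theorem nsq_nonneg {M : Matrix ι ι ℂ} (hM : M.PosSemidef) (U : Matrix ι ι ℂ) : 0 ≤ nsq M U :=
  nsq_eq M U ▸ Finset.sum_nonneg fun _ _ => qf_nonneg hM _

theorem qf_cauchy {M : Matrix ι ι ℂ} (hM : M.PosDef) (l : ι) (c : ι → ℂ) :
    Complex.normSq (∑ q, M l q * c q) ≤ (M l l).re * qf M c := by
  have hll : (0 : ℝ) < (M l l).re := (Complex.lt_def.1 (hM.diag_pos (i := l))).1
  have hreal : M l l = ((M l l).re : ℂ) :=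
    Complex.ext rfl (by simpa using (Complex.lt_def.1 (hM.diag_pos (i := l))).2.symm)
  obtain ⟨r, hr⟩ : ∃ r : ℂ, r = ∑ q, M l q * c q := ⟨_, rfl⟩
  have hr' : conj r = ∑ p, conj (c p) * M p l := by
    rw [hr, map_sum]
    refine Finset.sum_congr rfl fun p _ => ?_
    rw [map_mul, ← RCLike.star_def, hM.1.apply, RCLike.star_def, mul_comm]
  obtain ⟨v, hv⟩ : ∃ v : ι → ℂ, v = fun p => M l l * c p - if p = l then r else 0 := ⟨_, rfl⟩
  have h := qf_nonneg hM.posSemidef v
  have e : ∑ p, ∑ q, conj (v p) * M p q * v q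
      = M l l * (M l l * (∑ p, ∑ q, conj (c p) * M p q * c q) - conj r * r) := by
    have hc : conj (M l l) = M l l := by rw [hreal, Complex.conj_ofReal]
    simp only [hv, map_sub, map_mul, hc, apply_ite conj, map_zero, sub_mul, mul_sub, ite_mul, mul_ite,
      zero_mul, mul_zero, Finset.sum_sub_distrib, Finset.sum_ite_eq', Finset.mem_univ, if_true,
      Finset.sum_ite_irrel, Finset.sum_const_zero]
    have e1 : ∑ p, M l l * conj (c p) * M p l * r = M l l * (conj r * r) := by
      rw [hr', Finset.sum_mul, Finset.mul_sum]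
      exact Finset.sum_congr rfl fun p _ => by ring
    have e2 : ∑ q, conj r * M l q * (M l l * c q) = M l l * (conj r * r) := by
      rw [show r = ∑ q, M l q * c q from hr, Finset.mul_sum (a := conj (∑ q, M l q * c q)),
        Finset.mul_sum]
      exact Finset.sum_congr rfl fun q _ => by ring
    have e3 : ∑ p, ∑ q, M l l * conj (c p) * M p q * (M l l * c q)
        = M l l * (M l l * ∑ p, ∑ q, conj (c p) * M p q * c q) := by
      simp only [Finset.mul_sum]
      exact Finset.sum_congr rfl fun p _ => Finset.sum_congr rfl fun q _ => by ring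
    linear_combination e3 - e1 - e2
  rw [qf, e, hreal, Complex.re_ofReal_mul, Complex.sub_re, Complex.re_ofReal_mul,
    ← Complex.normSq_eq_conj_mul_self, Complex.ofReal_re] at h
  rw [← hr]
  simp only [qf]
  nlinarith [nonneg_of_mul_nonneg_right (a := (M l l).re) h hll]

/-- Displaced number operator against the projection on one coherent vector. -/
theorem qf_number {M : Matrix ι ι ℂ} {z : Fin n → ι → ℂ} (hM : M.PosDef) (hz : IsCoherent M z)
    (l : ι) (c : ι → ℂ) :
    qf M c ≤ (∑ k, qf M fun p => (z k p - z k l) * c p)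
      + Complex.normSq (∑ q, M l q * c q) / (M l l).re := by
  have hll : (0 : ℝ) < (M l l).re := (Complex.lt_def.1 (hM.diag_pos (i := l))).1
  have hreal : M l l = ((M l l).re : ℂ) :=
    Complex.ext rfl (by simpa using (Complex.lt_def.1 (hM.diag_pos (i := l))).2.symm)
  have h := gram_exp_le (fun q => M l q * c q) fun k q => z k q - z k l
  have hsym : ∀ p, conj (M l p) = M p l := fun p => by rw [← RCLike.star_def, hM.1.apply]
  have e1 : ∑ p, ∑ q, conj (M l p * c p) * (M l q * c q)
        * Complex.exp (∑ k, conj (z k p - z k l) * (z k q - z k l))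
      = M l l * ∑ p, ∑ q, conj (c p) * M p q * c q := by
    simp only [Finset.mul_sum]
    refine Finset.sum_congr rfl fun p _ => Finset.sum_congr rfl fun q _ => ?_
    rw [map_mul, hsym]
    linear_combination -(conj (c p) * c q) * hz l p q
  have e2 : ∑ p, ∑ q, conj (M l p * c p) * (M l q * c q)
        * ((∑ k, conj (z k p - z k l) * (z k q - z k l))
          * Complex.exp (∑ k, conj (z k p - z k l) * (z k q - z k l)))
      = M l l * ∑ k, ∑ p, ∑ q, conj ((z k p - z k l) * c p) * M p q * ((z k q - z k l) * c q) := by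
    rw [Finset.sum_comm (s := (Finset.univ : Finset (Fin n))), Finset.mul_sum]
    refine Finset.sum_congr rfl fun p _ => ?_
    rw [Finset.sum_comm (s := (Finset.univ : Finset (Fin n))), Finset.mul_sum]
    refine Finset.sum_congr rfl fun q _ => ?_
    rw [Finset.sum_mul, Finset.mul_sum, Finset.mul_sum]
    refine Finset.sum_congr rfl fun k _ => ?_
    rw [map_mul, map_mul, hsym]
    linear_combination -(conj (c p) * c q * (conj (z k p - z k l) * (z k q - z k l))) * hz l p q
  rw [e1, e2, hreal, Complex.re_ofReal_mul, Complex.re_ofReal_mul, Complex.re_sum] at h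
  simp only [qf, Complex.re_sum] at h ⊢
  rw [← sub_le_iff_le_add', le_div_iff₀ hll]
  linarith

theorem commutator_col (w : ι → ℂ) (C : Matrix ι ι ℂ) (p l : ι) :
    (diagonal w * C - C * diagonal w) p l = (w p - w l) * C p l := by
  simp [Matrix.diagonal_mul, Matrix.mul_diagonal]
  ring

theorem gap_sq_le {M Y Z : Matrix ι ι ℂ} (hM : M.PosSemidef) (htr : M.trace = 1) :
    gap M Y Z ^ 2 ≤ nsq M (Z * Yᴴ * M - Yᴴ * M * Z) := by
  obtain ⟨U, hU⟩ : ∃ U, U = Z * Yᴴ * M - Yᴴ * M * Z := ⟨_, rfl⟩
  rw [← hU]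
  have e : (trace (M * U)).re = gap M Y Z := by
    rw [hU, gap, wmat, mul_sub, mul_sub, trace_sub, trace_sub]
    congr 2
    · rw [show M * (Z * Yᴴ * M) = (M * Z) * (Yᴴ * M) by simp only [mul_assoc], trace_mul_comm]
      simp only [mul_assoc]
    · rw [trace_mul_comm M]
      simp only [mul_assoc]
  obtain ⟨a, ha⟩ : ∃ a : ℝ, a = gap M Y Z := ⟨_, rfl⟩
  have h := nsq_nonneg hM (U - (a : ℂ) • (1 : Matrix ι ι ℂ))
  have e' : (trace (Uᴴ * M)).re = a := by
    rw [← re_trace_star (Uᴴ * M), conjTranspose_mul, conjTranspose_conjTranspose, hM.1.eq, e, ha]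
  simp only [nsq, conjTranspose_sub, conjTranspose_smul, conjTranspose_one, RCLike.star_def,
    Complex.conj_ofReal, sub_mul, mul_sub, smul_mul_assoc, mul_smul_comm, one_mul, mul_one, trace_sub,
    trace_smul, smul_eq_mul, Complex.sub_re, Complex.re_ofReal_mul, e, e', ← ha, htr, Complex.one_re,
    smul_sub, Complex.ofReal_re] at h
  rw [← ha, nsq]
  nlinarith [h]

theorem space_identity {M Y Yx Z : Matrix ι ι ℂ} (hM : M.IsHermitian) {s : ℝ} (hY : sylv s M Y = Z)
    (hYx : sylv s M Yx = Y * M - M * Y) :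
    -s * gap M Yx Z - gap M Y Z
      = nsq M (Y * M) - nsq M (Yᴴ * M) := by
  obtain ⟨P, hP⟩ : ∃ P, P = M * M * Y - M * Y * M := ⟨_, rfl⟩
  have hW : wmat M Z = sylv s M P := by
    rw [wmat, ← hY, hP]
    simp only [sylv, mul_add, add_mul, mul_sub, sub_mul, mul_smul_comm, smul_mul_assoc, mul_assoc,
      smul_sub]
    abel
  have hadj : ∀ A B : Matrix ι ι ℂ, trace (Aᴴ * sylv s M B) = trace ((sylv s M A)ᴴ * B) := by
    intro A B
    simp only [sylv, mul_add, add_mul, conjTranspose_add, conjTranspose_smul, conjTranspose_mul,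
      RCLike.star_def, Complex.conj_ofReal, hM.eq, mul_smul_comm, smul_mul_assoc, trace_add, trace_smul,
      mul_assoc]
    rw [trace_mul_comm M (Aᴴ * B)]
    simp only [mul_assoc]
  have h1 : gap M Yx Z = (trace ((Y * M - M * Y)ᴴ * P)).re := by
    rw [gap, hW, hadj, hYx]
  rw [h1, gap, wmat, ← hY, hP]
  simp only [nsq, sylv, conjTranspose_sub, conjTranspose_mul, conjTranspose_conjTranspose, hM.eq,
    mul_add, add_mul, mul_sub, sub_mul, mul_smul_comm, smul_mul_assoc, mul_assoc, smul_sub,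
    trace_add, trace_sub, trace_smul, smul_eq_mul, Complex.add_re, Complex.sub_re,
    Complex.re_ofReal_mul]
  have t1 : trace (M * (Yᴴ * (M * (M * Y)))) = trace (Yᴴ * (M * (M * (Y * M)))) := by
    rw [trace_mul_comm M]; simp only [mul_assoc]
  have t2 : trace (M * (Yᴴ * (M * (Y * M)))) = trace (Yᴴ * (M * (Y * (M * M)))) := by
    rw [trace_mul_comm M]; simp only [mul_assoc]
  have t3 : trace (M * (Y * (M * (Yᴴ * M)))) = trace (Yᴴ * (M * (M * (Y * M)))) := by
    rw [show M * (Y * (M * (Yᴴ * M))) = (M * Y * M) * (Yᴴ * M) by simp only [mul_assoc],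
      trace_mul_comm]
    simp only [mul_assoc]
  simp only [t1, t2, t3]
  ring

/-- Both commutator norms together dominate the drift. -/
theorem drift_nonneg {M Y : Matrix ι ι ℂ} {z : Fin n → ι → ℂ} (hM : M.PosDef) (hz : IsCoherent M z) :
    0 ≤ (∑ k, nsq M (diagonal (z k) * Yᴴ * M - Yᴴ * M * diagonal (z k)))
      + (nsq M (Y * M) - nsq M (Yᴴ * M)) := by
  simp only [mul_assoc (diagonal _) Yᴴ M]
  simp only [nsq_eq, commutator_col]
  rw [Finset.sum_comm, ← Finset.sum_sub_distrib, ← Finset.sum_add_distrib]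
  refine Finset.sum_nonneg fun l _ => ?_
  have hll : (0 : ℝ) < (M l l).re := (Complex.lt_def.1 (hM.diag_pos (i := l))).1
  have h1 := qf_number hM hz l fun p => (Yᴴ * M) p l
  have h2 := qf_cauchy hM l fun p => (Y * M) p l
  have e : Complex.normSq (∑ q, M l q * (Yᴴ * M) q l) = Complex.normSq (∑ q, M l q * (Y * M) q l) := by
    rw [← Matrix.mul_apply, ← Matrix.mul_apply, ← Complex.normSq_conj, ← RCLike.star_def,
      ← conjTranspose_apply, conjTranspose_mul, conjTranspose_mul, conjTranspose_conjTranspose,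
      hM.1.eq, mul_assoc]
  rw [e] at h1
  have h3 : Complex.normSq (∑ q, M l q * (Y * M) q l) / (M l l).re ≤ qf M fun p => (Y * M) p l :=
    (div_le_iff₀ hll).2 (by linarith)
  linarith

/-- The derivative in time, as a sum of squares. -/
theorem time_identity {M : Matrix ι ι ℂ} (hM : M.IsHermitian) {z : Fin n → ι → ℂ} {s : ℝ} (j : Fin n)
    {Y Yd : Matrix ι ι ℂ} (hY : sylv s M Y = diagonal (z j))
    (hYd : sylv s M Yd = -(((1 / 2 : ℝ) : ℂ) • diagonal (z j))
      - ((s : ℂ) • ((∑ k, gen M (diagonal (z k))) * Y)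
        + ((1 - s : ℝ) : ℂ) • (Y * ∑ k, gen M (diagonal (z k))))) :
    s * (gap M Yd (diagonal (z j)) + (trace (Yᴴ * ((∑ k, gen M (diagonal (z k))) * M * diagonal (z j)
        + M * (∑ k, gen M (diagonal (z k))) * diagonal (z j)
        - (∑ k, gen M (diagonal (z k))) * diagonal (z j) * M
        - M * diagonal (z j) * (∑ k, gen M (diagonal (z k)))
        - ((1 / 2 : ℝ) : ℂ) • wmat M (diagonal (z j))))).re + gap M Y (diagonal (z j)))
      = ∑ k, (s * nsq M (diagonal (z k) * Yᴴ * M - Yᴴ * M * diagonal (z k))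
        + (1 - s) * nsq M (diagonal (z k) * Y * M - Y * M * diagonal (z k))) := by
  obtain ⟨Z, hZ⟩ : ∃ Z, Z = diagonal (z j) := ⟨_, rfl⟩
  obtain ⟨G, hG⟩ : ∃ G : Fin n → Matrix ι ι ℂ, G = fun k => gen M (diagonal (z k)) := ⟨_, rfl⟩
  rw [← hZ] at hY hYd ⊢
  obtain ⟨P, hP⟩ : ∃ P, P = M * M * Y - M * Y * M := ⟨_, rfl⟩
  have hW : wmat M Z = sylv s M P := by
    rw [wmat, ← hY, hP]
    simp only [sylv, mul_add, add_mul, mul_sub, sub_mul, mul_smul_comm, smul_mul_assoc, mul_assoc,
      smul_sub]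
    abel
  have hadj : ∀ A B : Matrix ι ι ℂ, trace (Aᴴ * sylv s M B) = trace ((sylv s M A)ᴴ * B) := by
    intro A B
    simp only [sylv, mul_add, add_mul, conjTranspose_add, conjTranspose_smul, conjTranspose_mul,
      RCLike.star_def, Complex.conj_ofReal, hM.eq, mul_smul_comm, smul_mul_assoc, trace_add, trace_smul,
      mul_assoc]
    rw [trace_mul_comm M (Aᴴ * B)]
    simp only [mul_assoc]
  have hd : gap M Yd Z = -(1 / 2) * gap M Y Z
      + ∑ k, (-s * (trace ((G k * Y)ᴴ * P)).re - (1 - s) * (trace ((Y * G k)ᴴ * P)).re) := by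
    have hZP : (trace (Zᴴ * P)).re = gap M Y Z := by rw [gap, hW, hadj, hY]
    rw [gap, hW, hadj, hYd]
    simp only [hG, conjTranspose_sub, conjTranspose_neg, conjTranspose_add, conjTranspose_smul,
      RCLike.star_def, Complex.conj_ofReal, sub_mul, neg_mul, add_mul, smul_mul_assoc, Finset.mul_sum,
      Finset.sum_mul, conjTranspose_sum, trace_sub, trace_neg, trace_add, trace_smul, trace_sum,
      smul_eq_mul, Complex.sub_re, Complex.neg_re, Complex.add_re, Complex.re_ofReal_mul, Complex.re_sum,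
      hZP, Finset.sum_sub_distrib, neg_mul, Finset.sum_neg_distrib]
    ring
  have hpair : ∀ k, s * (-s * (trace ((G k * Y)ᴴ * P)).re - (1 - s) * (trace ((Y * G k)ᴴ * P)).re
        + (trace (Yᴴ * (G k * M * Z + M * G k * Z - G k * Z * M - M * Z * G k))).re)
      = s * nsq M (diagonal (z k) * Yᴴ * M - Yᴴ * M * diagonal (z k))
        + (1 - s) * nsq M (diagonal (z k) * Y * M - Y * M * diagonal (z k)) := by
    intro k
    have hc : ∀ v : ι → ℂ, diagonal v * sylv s M Y = sylv s M Y * diagonal v := fun v => by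
      rw [hY, hZ, diagonal_mul_diagonal, diagonal_mul_diagonal]
      exact congrArg diagonal (funext fun i => mul_comm _ _)
    have h := pair_identity hM.eq (Z := diagonal (z k)) (Y := Y) (s := s)
      (by rw [diagonal_conjTranspose, diagonal_mul_diagonal, diagonal_mul_diagonal]
          exact congrArg diagonal (funext fun i => mul_comm _ _))
      (hc _) (by rw [diagonal_conjTranspose]; exact hc _)
    rw [hY] at h
    rw [hG, hP]
    exact h
  have hsum : (trace (Yᴴ * ((∑ k, G k) * M * Z + M * (∑ k, G k) * Z - (∑ k, G k) * Z * M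
        - M * Z * (∑ k, G k) - ((1 / 2 : ℝ) : ℂ) • wmat M Z))).re
      = (∑ k, (trace (Yᴴ * (G k * M * Z + M * G k * Z - G k * Z * M - M * Z * G k))).re)
        - 1 / 2 * gap M Y Z := by
    simp only [gap, mul_sub, mul_add, mul_smul_comm, Finset.sum_mul, Finset.mul_sum, trace_sub, trace_add,
      trace_smul, trace_sum, smul_eq_mul, Complex.sub_re, Complex.add_re, Complex.re_ofReal_mul,
      Complex.re_sum, Finset.sum_sub_distrib, Finset.sum_add_distrib]
  simp only [hG] at hsum
  rw [hsum, hd, ← Finset.sum_congr rfl fun k _ => hpair k, ← Finset.mul_sum]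
  simp only [hG, Finset.sum_add_distrib]
  ring

/-- The two differential inequalities. -/
theorem flow_ineq {M : Matrix ι ι ℂ} (hM : M.PosDef) (htr : M.trace = 1) {z : Fin n → ι → ℂ}
    (hz : IsCoherent M z) {s : ℝ} (hs : 0 < s) (hs1 : s ≤ 1) {Y Yd Yx : Fin n → Matrix ι ι ℂ}
    (hY : ∀ j, sylv s M (Y j) = diagonal (z j))
    (hYd : ∀ j, sylv s M (Yd j) = -(((1 / 2 : ℝ) : ℂ) • diagonal (z j))
      - ((s : ℂ) • ((∑ k, gen M (diagonal (z k))) * Y j)
        + ((1 - s : ℝ) : ℂ) • (Y j * ∑ k, gen M (diagonal (z k)))))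
    (hYx : ∀ j, sylv s M (Yx j) = Y j * M - M * Y j) :
    (∑ j, gap M (Y j) (diagonal (z j))) ^ 2 ≤ n * ∑ j, (gap M (Yd j) (diagonal (z j))
        + (trace ((Y j)ᴴ * ((∑ k, gen M (diagonal (z k))) * M * diagonal (z j)
        + M * (∑ k, gen M (diagonal (z k))) * diagonal (z j)
        - (∑ k, gen M (diagonal (z k))) * diagonal (z j) * M
        - M * diagonal (z j) * (∑ k, gen M (diagonal (z k)))
        - ((1 / 2 : ℝ) : ℂ) • wmat M (diagonal (z j))))).re + gap M (Y j) (diagonal (z j)))
    ∧ s * ∑ j, gap M (Yx j) (diagonal (z j)) ≤ ∑ j, (gap M (Yd j) (diagonal (z j))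
        + (trace ((Y j)ᴴ * ((∑ k, gen M (diagonal (z k))) * M * diagonal (z j)
        + M * (∑ k, gen M (diagonal (z k))) * diagonal (z j)
        - (∑ k, gen M (diagonal (z k))) * diagonal (z j) * M
        - M * diagonal (z j) * (∑ k, gen M (diagonal (z k)))
        - ((1 / 2 : ℝ) : ℂ) • wmat M (diagonal (z j))))).re) := by
  have hid := fun j => time_identity hM.1 j (hY j) (hYd j)
  have hV : ∀ j k, 0 ≤ (1 - s) * nsq M (diagonal (z k) * Y j * M - Y j * M * diagonal (z k)) :=
    fun j k => mul_nonneg (sub_nonneg.2 hs1) (nsq_nonneg hM.posSemidef _)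
  have hU : ∀ j, (∑ k, nsq M (diagonal (z k) * (Y j)ᴴ * M - (Y j)ᴴ * M * diagonal (z k)))
      ≤ gap M (Yd j) (diagonal (z j)) + (trace ((Y j)ᴴ * ((∑ k, gen M (diagonal (z k))) * M * diagonal (z j)
        + M * (∑ k, gen M (diagonal (z k))) * diagonal (z j)
        - (∑ k, gen M (diagonal (z k))) * diagonal (z j) * M
        - M * diagonal (z j) * (∑ k, gen M (diagonal (z k)))
        - ((1 / 2 : ℝ) : ℂ) • wmat M (diagonal (z j))))).re + gap M (Y j) (diagonal (z j)) := fun j => by
    refine le_of_mul_le_mul_left ?_ hs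
    rw [hid j, Finset.mul_sum]
    exact Finset.sum_le_sum fun k _ => le_add_of_nonneg_right (hV j k)
  constructor
  · refine le_trans ?_ (mul_le_mul_of_nonneg_left (Finset.sum_le_sum fun j _ => hU j) (Nat.cast_nonneg n))
    have h := sq_sum_le_card_mul_sum_sq (s := (Finset.univ : Finset (Fin n)))
      (f := fun j => gap M (Y j) (diagonal (z j)))
    rw [Finset.card_univ, Fintype.card_fin] at h
    refine h.trans (mul_le_mul_of_nonneg_left (Finset.sum_le_sum fun j _ => ?_) (Nat.cast_nonneg n))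
    exact (gap_sq_le hM.posSemidef htr).trans (Finset.single_le_sum
      (f := fun k => nsq M (diagonal (z k) * (Y j)ᴴ * M - (Y j)ᴴ * M * diagonal (z k)))
      (fun k _ => nsq_nonneg hM.posSemidef _) (Finset.mem_univ j))
  · rw [Finset.mul_sum]
    refine Finset.sum_le_sum fun j _ => ?_
    linarith [hU j, space_identity hM.1 (hY j) (hYx j), drift_nonneg (Y := Y j) hM hz]

end Vale.Agent.P369.Classical
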