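import Mathlib
import Vale.Agent.P369.Classical.Ineq

/-!
# P369: solving the Sylvester equation smoothly
-/

namespace Vale.Agent.P369.Classical

open Matrix Filter
open scoped Topology ComplexOrder

variable {ι : Type*} [Fintype ι] [DecidableEq ι]

/-- Differentiating the solution of a linear system. -/
theorem hasDerivAt_solve {κ : Type*} [Fintype κ] [DecidableEq κ] {K : ℝ → Matrix κ κ ℂ}
    {K' : Matrix κ κ ℂ} {x b : ℝ → κ → ℂ} {b' : κ → ℂ} {t : ℝ}
    (hK : ∀ i j, HasDerivAt (fun r => K r i j) (K' i j) t) (hdet : IsUnit (K t).det)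
    (hb : ∀ i, HasDerivAt (fun r => b r i) (b' i) t)
    (hx : ∀ i, ContinuousAt (fun r => x r i) t) (heq : ∀ᶠ r in 𝓝 t, K r *ᵥ x r = b r) (i : κ) :
    HasDerivAt (fun r => x r i) (((K t)⁻¹ *ᵥ (b' - K' *ᵥ x t)) i) t := by
  rw [hasDerivAt_iff_tendsto_slope]
  have hlim : Tendsto (fun r => ∑ j, (K t)⁻¹ i j
      * (slope (fun r => b r j) t r - ∑ l, slope (fun r => K r j l) t r * x r l)) (𝓝[≠] t)
      (𝓝 (((K t)⁻¹ *ᵥ (b' - K' *ᵥ x t)) i)) := by
    refine tendsto_finsetSum _ fun j _ => Tendsto.const_mul _ (Tendsto.sub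
      (hasDerivAt_iff_tendsto_slope.1 (hb j)) (tendsto_finsetSum _ fun l _ => ?_))
    exact (hasDerivAt_iff_tendsto_slope.1 (hK j l)).mul ((hx l).tendsto.mono_left nhdsWithin_le_nhds)
  refine hlim.congr' ?_
  filter_upwards [nhdsWithin_le_nhds heq] with r hr
  have ht := heq.self_of_nhds
  have e : K t *ᵥ (x r - x t) = (b r - b t) - (K r - K t) *ᵥ x r := by
    rw [Matrix.mulVec_sub, Matrix.sub_mulVec, hr, ht]; abel
  have e2 := congrArg (fun v => ((K t)⁻¹ *ᵥ v) i) e
  simp only [Matrix.mulVec_mulVec, Matrix.nonsing_inv_mul _ hdet, Matrix.one_mulVec] at e2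
  simp only [slope_def_module, Complex.real_smul]
  simp only [Matrix.mulVec, dotProduct, Pi.sub_apply, Matrix.sub_apply] at e2
  rw [e2, Finset.mul_sum]
  refine Finset.sum_congr rfl fun j _ => ?_
  rw [mul_sub, mul_sub ((((r - t)⁻¹ : ℝ) : ℂ) : ℂ) , ← mul_sub]
  simp only [Finset.mul_sum, mul_sub]
  congr 1
  · ring
  · exact Finset.sum_congr rfl fun l _ => by ring

/-- The Sylvester operator as a matrix. -/
def sylvMat (s : ℝ) (M : Matrix ι ι ℂ) : Matrix (ι × ι) (ι × ι) ℂ := fun a b =>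
  (if a.2 = b.2 then (s : ℂ) * M a.1 b.1 else 0)
    + (if a.1 = b.1 then ((1 - s : ℝ) : ℂ) * M b.2 a.2 else 0)

theorem sylvMat_mulVec (s : ℝ) (M Y : Matrix ι ι ℂ) :
    sylvMat s M *ᵥ (fun a => Y a.1 a.2) = fun a => sylv s M Y a.1 a.2 := by
  funext a
  simp only [sylvMat, sylv, mulVec, dotProduct, add_mul, ite_mul, zero_mul, Finset.sum_add_distrib,
    Matrix.add_apply, Matrix.smul_apply, smul_eq_mul, Matrix.mul_apply, Finset.mul_sum,
    Fintype.sum_prod_type]
  congr 1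
  · refine Finset.sum_congr rfl fun p _ => ?_
    rw [Finset.sum_ite_eq, if_pos (Finset.mem_univ _), mul_assoc]
  · rw [Finset.sum_comm]
    refine Finset.sum_congr rfl fun q _ => ?_
    rw [Finset.sum_ite_eq, if_pos (Finset.mem_univ _)]
    ring

theorem sylv_eq_zero {M Y : Matrix ι ι ℂ} (hM : M.PosDef) {s : ℝ} (h0 : 0 ≤ s) (h1 : s ≤ 1)
    (h : sylv s M Y = 0) : Y = 0 := by
  have hq : s * nsq M Y + (1 - s) * nsq M Yᴴ = 0 := by
    have e : (trace (Yᴴ * sylv s M Y)).re = s * nsq M Y + (1 - s) * nsq M Yᴴ := by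
      simp only [sylv, nsq, mul_add, mul_smul_comm, trace_add, trace_smul, smul_eq_mul, Complex.add_re,
        Complex.re_ofReal_mul, conjTranspose_conjTranspose, ← mul_assoc]
      rw [trace_mul_comm (Yᴴ * Y) M, trace_mul_comm (Y * M) Yᴴ, ← mul_assoc, ← mul_assoc,
        trace_mul_comm (Yᴴ * Y) M, ← mul_assoc]
    rw [← e, h, mul_zero, trace_zero, Complex.zero_re]
  have hzero : ∀ X : Matrix ι ι ℂ, nsq M X = 0 → X = 0 := by
    intro X hX
    rw [nsq_eq] at hX
    have hcol := (Finset.sum_eq_zero_iff_of_nonneg fun l _ => qf_nonneg hM.posSemidef _).1 hX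
    ext p l
    by_contra hne
    have := hM.dotProduct_mulVec_pos (x := fun p => X p l) (fun hh => hne (congrFun hh p))
    simp only [dotProduct, mulVec, Pi.star_apply, RCLike.star_def, Finset.mul_sum] at this
    have h2 := (Complex.lt_def.1 this).1
    have h3 := hcol l (Finset.mem_univ _)
    simp only [qf, mul_assoc] at h3
    rw [h3] at h2
    exact lt_irrefl _ h2
  have n1 := nsq_nonneg hM.posSemidef Y
  have n2 := nsq_nonneg hM.posSemidef Yᴴ
  rcases h0.eq_or_lt with hs | hs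
  · subst hs
    exact conjTranspose_eq_zero.1 (hzero _ (by linarith))
  · exact hzero _ (by nlinarith [mul_nonneg (sub_nonneg.2 h1) n2])

theorem isUnit_det_sylvMat {M : Matrix ι ι ℂ} (hM : M.PosDef) {s : ℝ} (h0 : 0 ≤ s) (h1 : s ≤ 1) :
    IsUnit (sylvMat s M).det := by
  rw [← Matrix.isUnit_iff_isUnit_det, ← Matrix.mulVec_injective_iff_isUnit]
  intro u v huv
  have h : sylvMat s M *ᵥ (u - v) = 0 := by rw [Matrix.mulVec_sub, huv, sub_self]
  have h' := sylvMat_mulVec s M (Matrix.of fun i j => (u - v) (i, j))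
  simp only [Matrix.of_apply, Prod.mk.eta] at h'
  rw [h] at h'
  have hz := sylv_eq_zero hM h0 h1 (Matrix.ext fun i j => by simpa using (congrFun h' (i, j)).symm)
  funext a
  exact sub_eq_zero.1 (congrFun (congrFun hz a.1) a.2)

/-- The solution of the Sylvester equation. -/
noncomputable def sol (s : ℝ) (M Z : Matrix ι ι ℂ) : Matrix ι ι ℂ :=
  Matrix.of fun i j => ((sylvMat s M)⁻¹ *ᵥ fun a => Z a.1 a.2) (i, j)

theorem sylv_sol {M : Matrix ι ι ℂ} (hM : M.PosDef) {s : ℝ} (h0 : 0 ≤ s) (h1 : s ≤ 1)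
    (Z : Matrix ι ι ℂ) : sylv s M (sol s M Z) = Z := by
  ext i j
  have h := congrFun (sylvMat_mulVec s M (sol s M Z)) (i, j)
  simp only [sol, Matrix.of_apply, Prod.mk.eta] at h
  rw [Matrix.mulVec_mulVec, Matrix.mul_nonsing_inv _ (isUnit_det_sylvMat hM h0 h1),
    Matrix.one_mulVec] at h
  exact h.symm

theorem continuousWithinAt_sol {X : Type*} [TopologicalSpace X] {S : Set X} {x : X} {s : X → ℝ}
    {M Z : X → Matrix ι ι ℂ} (hs : ContinuousWithinAt s S x) (hM : ContinuousWithinAt M S x)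
    (hZ : ContinuousWithinAt Z S x) (hd : IsUnit (sylvMat (s x) (M x)).det) :
    ContinuousWithinAt (fun r => sol (s r) (M r) (Z r)) S x := by
  obtain ⟨K, eK⟩ : ∃ K : ℝ × Matrix ι ι ℂ → Matrix (ι × ι) (ι × ι) ℂ,
      K = fun q => sylvMat q.1 q.2 := ⟨_, rfl⟩
  have hK : Continuous K := by
    rw [eK]
    refine continuous_pi fun a => continuous_pi fun b => ?_
    simp only [sylvMat]
    split_ifs <;> fun_prop
  have hinv : ContinuousAt (fun A : Matrix (ι × ι) (ι × ι) ℂ => A⁻¹) (sylvMat (s x) (M x)) :=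
    continuousAt_matrix_inv _ (by
      simpa [Ring.inverse_eq_inv'] using continuousAt_inv₀ hd.ne_zero)
  have hcomp : ContinuousWithinAt (fun r => (sylvMat (s r) (M r))⁻¹) S x := by
    have h1 : ContinuousWithinAt (fun r => K (s r, M r)) S x :=
      hK.continuousAt.comp_continuousWithinAt (hs.prodMk hM)
    rw [eK] at h1
    exact ContinuousAt.comp_continuousWithinAt (g := fun A : Matrix (ι × ι) (ι × ι) ℂ => A⁻¹) hinv h1
  refine continuousWithinAt_pi.2 fun i => continuousWithinAt_pi.2 fun j => ?_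
  simp only [sol, Matrix.of_apply, mulVec, dotProduct]
  exact tendsto_finsetSum _ fun a _ => (continuousWithinAt_pi.1 (continuousWithinAt_pi.1 hcomp _) a).mul
    (continuousWithinAt_pi.1 (continuousWithinAt_pi.1 hZ a.1) a.2)

/-- Differentiating the solution of the Sylvester equation along a curve. -/
theorem hasDerivAt_sol {s : ℝ → ℝ} {s' t : ℝ} {M Z : ℝ → Matrix ι ι ℂ} {M' Z' : Matrix ι ι ℂ}
    (hs : HasDerivAt s s' t) (hsI : ∀ᶠ r in 𝓝 t, s r ∈ Set.Icc (0 : ℝ) 1) (hpd : ∀ r, (M r).PosDef)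
    (hM : ∀ i j, HasDerivAt (fun r => M r i j) (M' i j) t)
    (hZ : ∀ i j, HasDerivAt (fun r => Z r i j) (Z' i j) t) (i j : ι) :
    HasDerivAt (fun r => sol (s r) (M r) (Z r) i j)
      (sol (s t) (M t) (Z' - sylv (s t) M' (sol (s t) (M t) (Z t))
        - (s' : ℂ) • (M t * sol (s t) (M t) (Z t) - sol (s t) (M t) (Z t) * M t)) i j) t := by
  have hd := isUnit_det_sylvMat (hpd t) hsI.self_of_nhds.1 hsI.self_of_nhds.2
  obtain ⟨K', eK'⟩ : ∃ K' : Matrix (ι × ι) (ι × ι) ℂ, K' = fun a b =>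
      (if a.2 = b.2 then (s' : ℂ) * M t a.1 b.1 + (s t : ℂ) * M' a.1 b.1 else 0)
      + (if a.1 = b.1 then -(s' : ℂ) * M t b.2 a.2 + ((1 - s t : ℝ) : ℂ) * M' b.2 a.2 else 0) :=
    ⟨_, rfl⟩
  have hK : ∀ a b, HasDerivAt (fun r => sylvMat (s r) (M r) a b) (K' a b) t := by
    intro a b
    rw [eK']
    simp only [sylvMat]
    refine HasDerivAt.add ?_ ?_
    · split_ifs
      · exact hs.ofReal_comp.mul (hM _ _)
      · exact hasDerivAt_const _ _
    · split_ifs
      · refine ((hs.const_sub 1).ofReal_comp.mul (hM _ _)).congr_deriv ?_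
        push_cast; ring
      · exact hasDerivAt_const _ _
  have hcM : ContinuousAt M t := continuousAt_pi.2 fun a => continuousAt_pi.2 fun b => (hM a b).continuousAt
  have hcZ : ContinuousAt Z t := continuousAt_pi.2 fun a => continuousAt_pi.2 fun b => (hZ a b).continuousAt
  have hc : ContinuousAt (fun r => sol (s r) (M r) (Z r)) t :=
    (continuousWithinAt_univ _ _).1 (continuousWithinAt_sol hs.continuousAt.continuousWithinAt
      hcM.continuousWithinAt hcZ.continuousWithinAt hd)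
  have h := hasDerivAt_solve (K := fun r => sylvMat (s r) (M r)) (b := fun r a => Z r a.1 a.2)
    (x := fun r a => sol (s r) (M r) (Z r) a.1 a.2) hK hd (fun a => hZ a.1 a.2)
    (fun a => continuousAt_pi.1 (continuousAt_pi.1 hc a.1) a.2) (by
      filter_upwards [hsI] with r hr
      rw [sylvMat_mulVec, sylv_sol (hpd r) hr.1 hr.2]) (i, j)
  refine h.congr_deriv ?_
  simp only [sol, Matrix.of_apply]
  refine congrArg (fun v => (((sylvMat (s t) (M t))⁻¹ : Matrix (ι × ι) (ι × ι) ℂ) *ᵥ v) (i, j)) ?_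
  obtain ⟨X, eX⟩ : ∃ X, X = sol (s t) (M t) (Z t) := ⟨_, rfl⟩
  simp only [show ∀ a b, (((sylvMat (s t) (M t))⁻¹ : Matrix (ι × ι) (ι × ι) ℂ) *ᵥ fun a => Z t a.1 a.2) (a, b)
    = X a b from fun a b => by rw [eX]; rfl, Prod.mk.eta]
  have hK'' : K' = sylvMat (s t) M' + (s' : ℂ) • (sylvMat 1 (M t) - sylvMat 0 (M t)) := by
    rw [eK']
    funext a b
    simp only [sylvMat, Matrix.add_apply, Matrix.smul_apply, Matrix.sub_apply, smul_eq_mul]
    split_ifs <;> push_cast <;> ring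
  rw [hK'', Matrix.add_mulVec, Matrix.smul_mulVec, Matrix.sub_mulVec]
  simp only [sylvMat_mulVec]
  funext a
  simp [sylv, show (Matrix.of fun i j => X i j) = X from rfl]
  ring

end Vale.Agent.P369.Classical
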