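import Mathlib
import Vale.Agent.P369.Classical.Sylv

/-!
# P369: the entropy production of a coherent mixture as an integral of Fisher gaps
-/

namespace Vale.Agent.P369.Classical

open Matrix MeasureTheory Set
open scoped ComplexConjugate ComplexOrder Interval

variable {ι : Type*} [Fintype ι] [DecidableEq ι] {n : ℕ}

theorem integral_ratio {p q : ℝ} (hp : 0 < p) (hq : 0 < q) :
    IntervalIntegrable (fun s : ℝ => (p ^ 2 - p * q) / (s * p + (1 - s) * q)) volume 0 1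
      ∧ ∫ s in (0 : ℝ)..1, (p ^ 2 - p * q) / (s * p + (1 - s) * q)
        = p * (Real.log p - Real.log q) := by
  have hd : ∀ s ∈ Icc (0 : ℝ) 1, 0 < s * p + (1 - s) * q := fun s hs => by
    rcases hs.1.eq_or_lt with h | h
    · subst h; simpa using hq
    · nlinarith [mul_pos h hp, mul_nonneg (sub_nonneg.2 hs.2) hq.le]
  have hc : ContinuousOn (fun s : ℝ => (p ^ 2 - p * q) / (s * p + (1 - s) * q)) (Icc 0 1) :=
    continuousOn_const.div (by fun_prop) fun s hs => (hd s hs).ne'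
  have hi : IntervalIntegrable (fun s : ℝ => (p ^ 2 - p * q) / (s * p + (1 - s) * q)) volume 0 1 :=
    (uIcc_of_le (zero_le_one (α := ℝ)) ▸ hc).intervalIntegrable
  refine ⟨hi, ?_⟩
  rw [intervalIntegral.integral_eq_sub_of_hasDerivAt
    (f := fun s => p * Real.log (s * p + (1 - s) * q)) (fun s hs => ?_) hi]
  · simp; ring
  · rw [uIcc_of_le zero_le_one] at hs
    refine (((((hasDerivAt_id s).mul_const p).add (((hasDerivAt_id s).const_sub 1).mul_const q)).log
      (hd s hs).ne').const_mul p).congr_deriv ?_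
    simp only [id, Pi.add_apply]
    field_simp
    ring

variable {M U : Matrix ι ι ℂ} {p : ι → ℝ}

omit [DecidableEq ι] in
theorem conj_conj_mul (U X Y : Matrix ι ι ℂ) [DecidableEq ι] (hU : Uᴴ * U = 1) :
    (U * X * Uᴴ) * (U * Y * Uᴴ) = U * (X * Y) * Uᴴ := by
  simp only [mul_assoc]
  rw [← mul_assoc Uᴴ U, hU, one_mul]

theorem conj_back (X : Matrix ι ι ℂ) (hU' : U * Uᴴ = 1) : U * (Uᴴ * X * U) * Uᴴ = X := by
  simp only [mul_assoc]
  rw [hU', mul_one, ← mul_assoc, hU', one_mul]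

/-- The Fisher gap in an eigenbasis. -/
theorem gap_eigen (hM : M.PosDef) (hp : ∀ i, 0 < p i) (hU : Uᴴ * U = 1)
    (hdec : M = U * diagonal (fun i => (p i : ℂ)) * Uᴴ) (z : ι → ℂ) {A : Matrix ι ι ℂ}
    (hZ : diagonal z = U * A * Uᴴ) {s : ℝ} (hs : s ∈ Icc (0 : ℝ) 1) :
    gap M (sol s M (diagonal z)) (diagonal z)
      = ∑ a, ∑ b, ‖A a b‖ ^ 2 * ((p a ^ 2 - p a * p b) / (s * p a + (1 - s) * p b)) := by
  have conj_mul := fun X Y => conj_conj_mul U X Y hU
  obtain ⟨D, eD⟩ : ∃ D : Matrix ι ι ℂ, D = diagonal fun i => (p i : ℂ) := ⟨_, rfl⟩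
  rw [← eD] at hdec
  have hd : ∀ a b, 0 < s * p a + (1 - s) * p b := fun a b => by
    rcases hs.1.eq_or_lt with h | h
    · subst h; simpa using hp b
    · nlinarith [mul_pos h (hp a), mul_nonneg (sub_nonneg.2 hs.2) (hp b).le]
  obtain ⟨Y, eY⟩ : ∃ Y : Matrix ι ι ℂ,
      Y = Matrix.of fun a b => A a b / ((s * p a + (1 - s) * p b : ℝ) : ℂ) := ⟨_, rfl⟩
  have hY : sylv s D Y = A := by
    ext a b
    simp only [sylv, eD, eY, Matrix.add_apply, Matrix.smul_apply, smul_eq_mul, Matrix.diagonal_mul,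
      Matrix.mul_diagonal, Matrix.of_apply]
    have h1 : ((s * p a + (1 - s) * p b : ℝ) : ℂ) ≠ 0 := Complex.ofReal_ne_zero.2 (hd a b).ne'
    push_cast at h1 ⊢
    field_simp
  have hsol : sol s M (diagonal z) = U * Y * Uᴴ := by
    refine sub_eq_zero.1 (sylv_eq_zero hM hs.1 hs.2 ?_)
    have h1 : sylv s M (U * Y * Uᴴ) = diagonal z := by
      rw [hZ, ← hY, sylv, sylv, hdec, conj_mul, conj_mul]
      simp only [mul_add, add_mul, mul_smul_comm, smul_mul_assoc]
    have h2 := sylv_sol hM hs.1 hs.2 (diagonal z)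
    simp only [sylv, mul_sub, sub_mul, smul_sub] at h1 h2 ⊢
    rw [sub_add_sub_comm, h2, h1, sub_self]
  rw [gap, wmat, hsol, hZ, hdec, conj_mul, conj_mul, conj_mul, conj_mul,
    show (U * Y * Uᴴ)ᴴ = U * Yᴴ * Uᴴ by simp [mul_assoc], ← sub_mul, ← mul_sub, conj_mul,
    trace_mul_cycle, hU, one_mul, eD]
  simp only [trace, diag_apply, Matrix.mul_apply, Matrix.conjTranspose_apply, Matrix.sub_apply,
    diagonal_apply, ite_mul, mul_ite, zero_mul, mul_zero, Finset.sum_ite_eq, Finset.sum_ite_eq',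
    Finset.mem_univ, if_true, Complex.re_sum, eY, Matrix.of_apply, RCLike.star_def, map_div₀,
    Complex.conj_ofReal]
  rw [Finset.sum_comm]
  refine Finset.sum_congr rfl fun a _ => Finset.sum_congr rfl fun b _ => ?_
  rw [show conj (A a b) / ((s * p a + (1 - s) * p b : ℝ) : ℂ)
      * ((p a : ℂ) * (p a : ℂ) * A a b - (p a : ℂ) * A a b * (p b : ℂ))
    = ((((p a ^ 2 - p a * p b) / (s * p a + (1 - s) * p b) : ℝ)) : ℂ) * (conj (A a b) * A a b) by
      push_cast; ring, ← Complex.normSq_eq_conj_mul_self, ← Complex.ofReal_mul, Complex.ofReal_re,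
    Complex.normSq_eq_norm_sq, mul_comm]

/-- The diagonal of the generator in an eigenbasis. -/
theorem gen_eigen (hU : Uᴴ * U = 1) (hdec : M = U * diagonal (fun i => (p i : ℂ)) * Uᴴ) (z : ι → ℂ)
    {A : Matrix ι ι ℂ} (hZ : diagonal z = U * A * Uᴴ) (i : ι) :
    ((Uᴴ * gen M (diagonal z) * U) i i).re = ∑ a, ‖A a i‖ ^ 2 * (p i - p a) := by
  have conj_mul := fun X Y => conj_conj_mul U X Y hU
  obtain ⟨D, eD⟩ : ∃ D : Matrix ι ι ℂ, D = diagonal fun i => (p i : ℂ) := ⟨_, rfl⟩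
  rw [← eD] at hdec
  have hT : Uᴴ * gen M (diagonal z) * U
      = gen D A := by
    rw [gen, gen, hZ, hdec, show (U * A * Uᴴ)ᴴ = U * Aᴴ * Uᴴ by simp [mul_assoc],
      conj_mul, conj_mul, conj_mul, conj_mul, conj_mul]
    simp only [mul_add, add_mul, mul_neg, neg_mul, mul_smul_comm, smul_mul_assoc, mul_assoc, hU,
      mul_one]
    simp only [← mul_assoc Uᴴ U, hU, one_mul]
  rw [hT, gen, eD]
  simp only [Matrix.add_apply, Matrix.neg_apply, Matrix.smul_apply, smul_eq_mul, Matrix.mul_diagonal,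
    Matrix.diagonal_mul]
  rw [Matrix.mul_apply, Matrix.mul_apply]
  simp only [Matrix.mul_diagonal, Matrix.conjTranspose_apply, RCLike.star_def, Complex.add_re,
    Complex.neg_re, Finset.sum_mul, Finset.mul_sum, ← Finset.sum_add_distrib, Complex.re_sum,
    ← Finset.sum_neg_distrib]
  refine Finset.sum_congr rfl fun a _ => ?_
  have e : ∀ c : ℝ, (c : ℂ) * (conj (A a i) * A a i) = ((c * ‖A a i‖ ^ 2 : ℝ) : ℂ) := fun c => by
    rw [← Complex.normSq_eq_conj_mul_self, Complex.normSq_eq_norm_sq, Complex.ofReal_mul]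
  rw [show conj (A a i) * (p a : ℂ) * A a i = (p a : ℂ) * (conj (A a i) * A a i) by ring,
    show ((1 / 2 : ℝ) : ℂ) * (conj (A a i) * A a i * (p i : ℂ) + (p i : ℂ) * (conj (A a i) * A a i))
      = (p i : ℂ) * (conj (A a i) * A a i) by push_cast; ring, e, e, Complex.ofReal_re,
    Complex.ofReal_re]
  ring

/-- Row and column norms of a normal matrix. -/
theorem row_eq_col (hU' : U * Uᴴ = 1) (z : ι → ℂ) (i : ι) :
    ∑ a, ‖(Uᴴ * diagonal z * U) a i‖ ^ 2 = ∑ a, ‖(Uᴴ * diagonal z * U) i a‖ ^ 2 := by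
  obtain ⟨A, eA⟩ : ∃ A, A = Uᴴ * diagonal z * U := ⟨_, rfl⟩
  rw [← eA]
  have hV : (Uᴴ)ᴴ * Uᴴ = 1 := by rw [conjTranspose_conjTranspose, hU']
  have h : Aᴴ * A = A * Aᴴ := by
    have e : Aᴴ = Uᴴ * (diagonal z)ᴴ * (Uᴴ)ᴴ := by rw [eA]; simp [mul_assoc]
    have e' : A = Uᴴ * diagonal z * (Uᴴ)ᴴ := by rw [eA, conjTranspose_conjTranspose]
    rw [e, e', conj_conj_mul _ _ _ hV, conj_conj_mul _ _ _ hV, diagonal_conjTranspose,
      diagonal_mul_diagonal, diagonal_mul_diagonal]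
    exact congrArg (fun d => Uᴴ * Matrix.diagonal d * Uᴴᴴ) (funext fun l => mul_comm _ _)
  have h' := congrArg Complex.re (congrFun (congrFun h i) i)
  simp only [Matrix.mul_apply, Matrix.conjTranspose_apply, RCLike.star_def, Complex.re_sum,
    ← Complex.normSq_eq_conj_mul_self, Complex.mul_conj, Complex.ofReal_re,
    Complex.normSq_eq_norm_sq] at h'
  exact h'

/-- The entropy production in an eigenbasis. -/
theorem rate_eq_integral (hM : M.PosDef) (hp : ∀ i, 0 < p i)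
    (hU : Uᴴ * U = 1) (hU' : U * Uᴴ = 1) (hdec : M = U * diagonal (fun i => (p i : ℂ)) * Uᴴ)
    (z : Fin n → ι → ℂ) :
    ∑ i, (-Real.log (p i) - 1) * ((Uᴴ * (∑ k, gen M (diagonal (z k))) * U) i i).re
      = -∫ s in (0 : ℝ)..1, ∑ j, gap M (sol s M (diagonal (z j))) (diagonal (z j)) := by
  obtain ⟨A, eA⟩ : ∃ A : Fin n → Matrix ι ι ℂ, A = fun j => Uᴴ * diagonal (z j) * U := ⟨_, rfl⟩
  have hZ : ∀ j, diagonal (z j) = U * A j * Uᴴ := fun j => by rw [eA]; exact (conj_back _ hU').symm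
  have hgap := fun s (hs : s ∈ Icc (0 : ℝ) 1) j => gap_eigen hM hp hU hdec (z j) (hZ j) hs
  -- the integral
  have hint : (∫ s in (0 : ℝ)..1, ∑ j, gap M (sol s M (diagonal (z j))) (diagonal (z j)))
      = ∑ j, ∑ a, ∑ b, ‖A j a b‖ ^ 2 * (p a * (Real.log (p a) - Real.log (p b))) := by
    rw [intervalIntegral.integral_congr (g := fun s => ∑ q : Fin n × ι × ι, ‖A q.1 q.2.1 q.2.2‖ ^ 2
      * ((p q.2.1 ^ 2 - p q.2.1 * p q.2.2) / (s * p q.2.1 + (1 - s) * p q.2.2))) (fun s hs => by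
        rw [uIcc_of_le zero_le_one] at hs
        simp only [Fintype.sum_prod_type, hgap s hs]),
      intervalIntegral.integral_finsetSum fun q _ => (integral_ratio (hp _) (hp _)).1.const_mul _,
      Fintype.sum_prod_type]
    simp only [intervalIntegral.integral_const_mul, (integral_ratio (hp _) (hp _)).2, Fintype.sum_prod_type]
  have hdiag : ∀ i, ((Uᴴ * (∑ k, gen M (diagonal (z k))) * U) i i).re
      = ∑ k, ∑ a, ‖A k a i‖ ^ 2 * (p i - p a) := by
    intro i
    rw [Finset.mul_sum, Finset.sum_mul, Matrix.sum_apply, Complex.re_sum]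
    exact Finset.sum_congr rfl fun k _ => gen_eigen hU hdec (z k) (hZ k) i
  have hrow : ∀ k i, ∑ a, ‖A k a i‖ ^ 2 = ∑ a, ‖A k i a‖ ^ 2 := fun k i => eA ▸ row_eq_col hU' (z k) i
  rw [hint]
  simp only [hdiag]
  rw [show (∑ i, (-Real.log (p i) - 1) * ∑ k, ∑ a, ‖A k a i‖ ^ 2 * (p i - p a))
      = ∑ k, ∑ i, ∑ a, (-Real.log (p i) - 1) * (‖A k a i‖ ^ 2 * (p i - p a)) by
    simp only [Finset.mul_sum]
    exact Finset.sum_comm, ← Finset.sum_neg_distrib]
  refine Finset.sum_congr rfl fun k _ => ?_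
  have e1 : ∑ i, ∑ a, (-Real.log (p i) - 1) * (‖A k a i‖ ^ 2 * (p i - p a))
      = (∑ i, (-Real.log (p i) - 1) * p i * ∑ a, ‖A k a i‖ ^ 2)
        + ∑ i, ∑ a, (Real.log (p i) + 1) * p a * ‖A k a i‖ ^ 2 := by
    rw [← Finset.sum_add_distrib]
    refine Finset.sum_congr rfl fun i _ => ?_
    rw [Finset.mul_sum, ← Finset.sum_add_distrib]
    exact Finset.sum_congr rfl fun a _ => by ring
  rw [e1]
  simp only [hrow, Finset.mul_sum]
  rw [Finset.sum_comm (f := fun i a => (Real.log (p i) + 1) * p a * ‖A k a i‖ ^ 2),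
    ← Finset.sum_add_distrib, ← Finset.sum_neg_distrib]
  refine Finset.sum_congr rfl fun i _ => ?_
  rw [← Finset.sum_add_distrib, ← Finset.sum_neg_distrib]
  exact Finset.sum_congr rfl fun a _ => by ring

end Vale.Agent.P369.Classical
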