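import Mathlib
import Vale.Agent.P369.Fock.Flow

/-!
# P369: the scalar argument turning the two differential inequalities into the entropy bound
-/

namespace Vale.Agent.P369.Classical

open MeasureTheory Set Filter
open scoped Topology Interval
open Vale.Agent.P369.Fock (g)

/-- `log (1 + 1/t)`. -/
noncomputable def lg (t : ℝ) : ℝ := Real.log (1 + 1 / t)

/-- The weight function. -/
noncomputable def psi (y : ℝ) : ℝ := (1 + y) ^ 2 * (lg y - 1 / (1 + y))

theorem half_le_psi {y : ℝ} (hy : 0 < y) : 1 / 2 ≤ psi y := by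
  have h : 2 / (1 + 2 * y) ≤ lg y := by
    refine le_trans (le_of_eq ?_) (Real.le_log_one_add_of_nonneg (x := 1 / y) (by positivity))
    field_simp
  calc (1 : ℝ) / 2 ≤ (1 + y) ^ 2 * (2 / (1 + 2 * y) - 1 / (1 + y)) := by
        field_simp
        nlinarith
    _ ≤ psi y := mul_le_mul_of_nonneg_left (by linarith) (sq_nonneg _)

theorem hasDerivAt_psi {y : ℝ} (hy : 0 < y) :
    HasDerivAt psi (2 * (1 + y) * lg y - 2 - 1 / y) y := by
  have h1 : HasDerivAt lg (-(1 / (y * (1 + y)))) y := by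
    have h := (((hasDerivAt_inv hy.ne').const_add 1).log (by positivity : (1 : ℝ) + y⁻¹ ≠ 0))
    refine HasDerivAt.congr_of_eventuallyEq (h.congr_deriv ?_) (Eventually.of_forall fun x => ?_)
    · field_simp
      ring
    · simp [lg, one_div]
  have h2 : HasDerivAt (fun x => 1 / (1 + x)) (-(1 / (1 + y) ^ 2)) y := by
    refine HasDerivAt.congr_of_eventuallyEq ((((hasDerivAt_id y).const_add 1).inv
      (show (1 : ℝ) + id y ≠ 0 by simp only [id]; positivity)).congr_deriv ?_) (Eventually.of_forall fun x => ?_)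
    · simp only [id]; ring
    · simp [one_div]
  refine ((((hasDerivAt_id y).const_add 1).pow 2).mul (h1.sub h2)).congr_deriv ?_
  simp only [id, Pi.sub_apply, Pi.pow_apply]
  field_simp
  ring

theorem psi_antitone {a b : ℝ} (ha : 0 < a) (hab : a ≤ b) : psi b ≤ psi a := by
  refine antitoneOn_of_hasDerivWithinAt_nonpos (convex_Icc a b)
    (f' := fun y => 2 * (1 + y) * lg y - 2 - 1 / y)
    (fun y hy => (hasDerivAt_psi (ha.trans_le hy.1)).continuousAt.continuousWithinAt)
    (fun y hy => ?_) (fun y hy => ?_) (left_mem_Icc.2 hab) (right_mem_Icc.2 hab) hab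
  all_goals rw [interior_Icc] at hy
  · exact (hasDerivAt_psi (ha.trans hy.1)).hasDerivWithinAt
  · have hy0 : 0 < y := ha.trans hy.1
    have hr : 1 ≤ 1 + 1 / y := by simp [hy0.le]
    have h := Real.self_le_sinh_iff.2 (Real.log_nonneg hr)
    rw [Real.sinh_log (by positivity)] at h
    have e : ((1 + 1 / y) - (1 + 1 / y)⁻¹) / 2 = (2 + 1 / y) / (2 * (1 + y)) := by
      field_simp
      ring
    rw [e, le_div_iff₀ (by positivity)] at h
    unfold lg
    linarith

/-- The weight `1 - 1/psi` of the comparison. -/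
noncomputable def kap (M : ℝ) : ℝ := 1 - 1 / psi M

theorem neg_one_le_kap {M : ℝ} (hM : 0 < M) : -1 ≤ kap M := by
  have h := half_le_psi hM
  have : 1 / psi M ≤ 2 := by rw [div_le_iff₀ (by linarith)]; linarith
  unfold kap; linarith

/-- The rate of change bound obtained from the two pointwise inequalities. -/
theorem rate_bound {M : ℝ} (hM : 0 < M) {f fs ft : ℝ → ℝ} (hf : ContinuousOn f (Icc 0 1))
    (hft : ContinuousOn ft (Icc 0 1)) (hd : ∀ s ∈ Ioo (0 : ℝ) 1, HasDerivAt f (fs s) s)
    (h1 : ∀ s ∈ Ioo (0 : ℝ) 1, f s ^ 2 - f s ≤ ft s)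
    (h2 : ∀ s ∈ Ioo (0 : ℝ) 1, s * fs s ≤ ft s) :
    -(M * lg M - M / (1 + M)) - kap M * ((∫ s in (0 : ℝ)..1, f s) - M * lg M)
      ≤ ∫ s in (0 : ℝ)..1, ft s := by
  have hψ : 0 < psi M := lt_of_lt_of_le (by norm_num) (half_le_psi hM)
  obtain ⟨f0, ef0⟩ : ∃ f0 : ℝ → ℝ, f0 = fun s => M / (s + M) := ⟨_, rfl⟩
  obtain ⟨th, eth⟩ : ∃ th : ℝ → ℝ, th = fun s => psi (M / s) / psi M := ⟨_, rfl⟩
  obtain ⟨H, eH⟩ : ∃ H : ℝ → ℝ, H = fun s => (1 - th s) * (f s - f0 s) * s := ⟨_, rfl⟩
  have hne : ∀ s ∈ Icc (0 : ℝ) 1, s + M ≠ 0 := fun s hs => by linarith [hs.1]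
  have hf0 : ContinuousOn f0 (Icc 0 1) := by
    rw [ef0]; exact continuousOn_const.div (continuousOn_id.add continuousOn_const) hne
  have hth : ∀ s ∈ Ioc (0 : ℝ) 1, 0 ≤ th s ∧ th s ≤ 1 := by
    intro s hs
    have hMs : M ≤ M / s := by rw [le_div_iff₀ hs.1]; nlinarith [hs.2]
    rw [eth]
    exact ⟨div_nonneg (le_trans (by norm_num) (half_le_psi (hM.trans_le hMs))) hψ.le,
      (div_le_one hψ).2 (psi_antitone hM hMs)⟩
  have hthd : ∀ s, 0 < s → HasDerivAt th
      ((2 * (1 + M / s) * lg (M / s) - 2 - 1 / (M / s)) * (-M / s ^ 2) / psi M) s := by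
    intro s hs
    have h : HasDerivAt (fun x => M / x) (-M / s ^ 2) s := by
      refine HasDerivAt.congr_deriv ((hasDerivAt_const s M).div (hasDerivAt_id s) hs.ne') ?_
      simp
    rw [eth]
    exact ((hasDerivAt_psi (div_pos hM hs)).comp s h).div_const _
  have hH0 : H 0 = 0 := by simp [eH]
  have hH1 : H 1 = 0 := by simp [eH, eth, hψ.ne']
  have hHc : ContinuousOn H (Icc 0 1) := by
    intro s hs
    rcases hs.1.eq_or_lt with h | h
    · subst h
      have hb : ∀ᶠ x in 𝓝[Icc 0 1] (0 : ℝ), ‖H x‖ ≤ |f x - f0 x| * x := by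
        filter_upwards [self_mem_nhdsWithin] with x hx
        rcases hx.1.eq_or_lt with hx0 | hx0
        · subst hx0; simp [hH0]
        · obtain ⟨a, b⟩ := hth x ⟨hx0, hx.2⟩
          rw [eH, Real.norm_eq_abs, abs_mul, abs_mul, abs_of_nonneg hx.1]
          refine mul_le_mul_of_nonneg_right (mul_le_of_le_one_left (abs_nonneg _) ?_) hx.1
          rw [abs_le]; constructor <;> linarith
      have hz : Tendsto (fun x => |f x - f0 x| * x) (𝓝[Icc 0 1] (0 : ℝ)) (𝓝 0) := by
        simpa [Pi.mul_def] using ((((hf 0 hs).sub (hf0 0 hs)).abs).mul continuousWithinAt_id).tendsto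
      rw [ContinuousWithinAt, hH0]
      exact squeeze_zero_norm' hb hz
    · rw [eH]
      exact (((continuousWithinAt_const.sub (hthd s h).continuousAt.continuousWithinAt)).mul
        ((hf s hs).sub (hf0 s hs))).mul continuousWithinAt_id
  obtain ⟨v, ev⟩ : ∃ v : ℝ → ℝ,
      v = fun s => ft s + (f0 s - f0 s ^ 2) + kap M * (f s - f0 s) := ⟨_, rfl⟩
  have hv : ContinuousOn v (Icc 0 1) := by
    rw [ev]
    exact (hft.add (hf0.sub (hf0.pow 2))).add (continuousOn_const.mul (hf.sub hf0))
  obtain ⟨K, eK⟩ : ∃ K : ℝ → ℝ, K = fun s => (∫ x in (0 : ℝ)..s, v x) - H s := ⟨_, rfl⟩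
  have hKd : ∀ s ∈ Ioo (0 : ℝ) 1, ∃ d, 0 ≤ d ∧ HasDerivAt K d s := by
    intro s hs
    have hsI : s ∈ Icc (0 : ℝ) 1 := ⟨hs.1.le, hs.2.le⟩
    have hI : HasDerivAt (fun u => ∫ x in (0 : ℝ)..u, v x) (v s) s :=
      intervalIntegral.integral_hasDerivAt_right
        ((hv.mono (by rw [uIcc_of_le hs.1.le]; exact Icc_subset_Icc_right hs.2.le)).intervalIntegrable)
        (hv.mono Ioo_subset_Icc_self |>.stronglyMeasurableAtFilter isOpen_Ioo s hs)
        (hv.continuousAt (Icc_mem_nhds hs.1 hs.2))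
    have hsM : s + M ≠ 0 := hne s hsI
    have hd0 : HasDerivAt f0 (-M / (s + M) ^ 2) s := by
      rw [ef0]
      refine ((hasDerivAt_const s M).div ((hasDerivAt_id s).add_const M) hsM).congr_deriv ?_
      simp
    have hHd := (((hthd s hs.1).const_sub 1).mul ((hd s hs).sub hd0)).mul (hasDerivAt_id s)
    have hKd := hI.sub hHd
    refine ⟨_, ?_, hKd.congr_of_eventuallyEq (Eventually.of_forall fun x => by simp [eK, eH])⟩
    obtain ⟨a, b⟩ := hth s ⟨hs.1, hs.2.le⟩
    have key : th s * (f s ^ 2 - f s) + (1 - th s) * (s * fs s) ≤ ft s := by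
      nlinarith [mul_le_mul_of_nonneg_left (h1 s hs) a,
        mul_le_mul_of_nonneg_left (h2 s hs) (sub_nonneg.2 b)]
    have tan : th s * (f0 s ^ 2 - f0 s + (2 * f0 s - 1) * (f s - f0 s)) ≤ th s * (f s ^ 2 - f s) :=
      mul_le_mul_of_nonneg_left (by nlinarith [sq_nonneg (f s - f0 s)]) a
    have e0 : s * (-M / (s + M) ^ 2) = f0 s ^ 2 - f0 s := by
      rw [ef0]; field_simp; ring
    have e1 : 2 * th s * f0 s
        + s * ((2 * (1 + M / s) * lg (M / s) - 2 - 1 / (M / s)) * (-M / s ^ 2) / psi M) = 1 / psi M := by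
      have hne' : M + s ≠ 0 := by linarith [hs.1]
      have hs0 : s ≠ 0 := hs.1.ne'
      simp only [eth, ef0, psi]
      field_simp
      ring
    simp only [ev, kap, id, Pi.sub_apply, Pi.mul_apply] at *
    linear_combination key + tan - (1 - th s) * e0 - (f s - f0 s) * e1
  have hKc : ContinuousOn K (Icc 0 1) := by
    rw [eK]
    refine ContinuousOn.sub ?_ hHc
    have h := intervalIntegral.continuousOn_primitive_interval (μ := volume)
      ((hv.integrableOn_Icc).mono_set (uIcc_of_le (zero_le_one (α := ℝ))).le)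
    rwa [uIcc_of_le zero_le_one] at h
  choose d hd0 hdd using hKd
  classical
  have hmono : MonotoneOn K (Icc 0 1) := by
    refine monotoneOn_of_hasDerivWithinAt_nonneg (convex_Icc 0 1) hKc
      (f' := fun s => if h : s ∈ Ioo (0 : ℝ) 1 then d s h else 0) (fun s hs => ?_) (fun s hs => ?_)
    all_goals rw [interior_Icc] at hs
    · rw [dif_pos hs]; exact (hdd s hs).hasDerivWithinAt
    · rw [dif_pos hs]; exact hd0 s hs
  have hfin := hmono (left_mem_Icc.2 zero_le_one) (right_mem_Icc.2 zero_le_one) zero_le_one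
  have hci : ∀ φ : ℝ → ℝ, ContinuousOn φ (Icc 0 1) → IntervalIntegrable φ volume 0 1 := fun φ h =>
    (uIcc_of_le (zero_le_one (α := ℝ)) ▸ h).intervalIntegrable
  have I1 : ∫ s in (0 : ℝ)..1, f0 s = M * lg M := by
    rw [intervalIntegral.integral_eq_sub_of_hasDerivAt (f := fun s => M * Real.log (s + M))
      (fun s hs => ?_) (hci _ hf0)]
    · rw [lg, ← mul_sub, ← Real.log_div (by linarith) (by linarith), zero_add]
      congr 2
      field_simp
      ring
    · rw [uIcc_of_le zero_le_one] at hs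
      rw [ef0]
      refine ((((hasDerivAt_id s).add_const M).log (hne s hs)).const_mul M).congr_deriv ?_
      simp [div_eq_mul_inv]
  have I2 : ∫ s in (0 : ℝ)..1, f0 s ^ 2 = M / (1 + M) := by
    rw [intervalIntegral.integral_eq_sub_of_hasDerivAt (f := fun s => -(M ^ 2 / (s + M)))
      (fun s hs => ?_) (hci (fun s => f0 s ^ 2) (hf0.pow 2))]
    · have : M ≠ 0 := hM.ne'
      rw [zero_add]
      field_simp
      ring
    · rw [uIcc_of_le zero_le_one] at hs
      have := hne s hs
      rw [ef0]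
      refine (((hasDerivAt_const s (M ^ 2)).div ((hasDerivAt_id s).add_const M) this).neg).congr_deriv ?_
      simp only [id]
      field_simp
      ring
  simp only [eK, intervalIntegral.integral_same, hH0, hH1, sub_zero, ev] at hfin
  have iq : IntervalIntegrable (fun s => f0 s - f0 s ^ 2) volume 0 1 := hci _ (hf0.sub (hf0.pow 2))
  have id' : IntervalIntegrable (fun s => f s - f0 s) volume 0 1 := hci _ (hf.sub hf0)
  rw [intervalIntegral.integral_add ((hci _ hft).add iq) (id'.const_mul _),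
    intervalIntegral.integral_add (hci _ hft) iq,
    intervalIntegral.integral_sub (hci _ hf0) (hci (fun s => f0 s ^ 2) (hf0.pow 2)),
    intervalIntegral.integral_const_mul, intervalIntegral.integral_sub (hci _ hf) (hci _ hf0), I1, I2]
    at hfin
  linarith

/-- A function whose derivative is nonnegative while it is negative stays nonnegative. -/
theorem nonneg_of_deriv {w w' : ℝ → ℝ} {a b : ℝ} (hab : a ≤ b) (h0 : 0 ≤ w a)
    (hd : ∀ t ∈ Icc a b, HasDerivAt w (w' t) t) (h : ∀ t ∈ Icc a b, w t < 0 → 0 ≤ w' t) : 0 ≤ w b := by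
  by_contra hb
  push Not at hb
  have hc : ContinuousOn w (Icc a b) := fun t ht => (hd t ht).continuousAt.continuousWithinAt
  obtain ⟨c, hc', hmax⟩ := ((isCompact_Icc (a := a) (b := b)).of_isClosed_subset
    (hc.preimage_isClosed_of_isClosed isClosed_Icc isClosed_Ici) inter_subset_left).exists_isGreatest
    ⟨a, left_mem_Icc.2 hab, h0⟩
  have hmono : MonotoneOn w (Icc c b) := by
    refine monotoneOn_of_hasDerivWithinAt_nonneg (convex_Icc c b)
      (hc.mono (Icc_subset_Icc_left hc'.1.1)) (f' := w') (fun t ht => ?_) (fun t ht => ?_)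
    all_goals rw [interior_Icc] at ht
    all_goals have htI : t ∈ Icc a b := ⟨hc'.1.1.trans ht.1.le, ht.2.le⟩
    · exact (hd t htI).hasDerivWithinAt
    · refine h t htI (lt_of_not_ge fun hw => ?_)
      exact absurd (hmax ⟨htI, hw⟩) (not_le.2 ht.1)
  have := hmono (left_mem_Icc.2 hc'.1.2) (right_mem_Icc.2 hc'.1.2) hc'.1.2
  linarith [show 0 ≤ w c from hc'.2]

theorem hasDerivAt_decay (N t0 t : ℝ) :
    HasDerivAt (fun r => N * Real.exp (-(r - t0))) (-(N * Real.exp (-(t - t0)))) t := by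
  refine ((((hasDerivAt_id t).sub_const t0).neg).exp.const_mul N).congr_deriv ?_
  simp

theorem hasDerivAt_mul_lg {M : ℝ} (hM : 0 < M) :
    HasDerivAt (fun x => x * lg x) (lg M - 1 / (1 + M)) M := by
  have h1 : HasDerivAt lg (-(1 / (M * (1 + M)))) M := by
    have h := (((hasDerivAt_inv hM.ne').const_add 1).log (by positivity : (1 : ℝ) + M⁻¹ ≠ 0))
    refine HasDerivAt.congr_of_eventuallyEq (h.congr_deriv ?_) (Eventually.of_forall fun x => ?_)
    · field_simp
      ring
    · simp [lg, one_div]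
  refine ((hasDerivAt_id M).mul h1).congr_deriv ?_
  simp only [id, one_mul]
  field_simp
  ring

/-- The entropy bound along the flow. -/
theorem entropy_bound {n : ℕ} {S D D' : ℝ → ℝ} (hS : ∀ t, 0 ≤ t → HasDerivAt S (-((n : ℝ) * D t)) t)
    (hD : ∀ t, 0 ≤ t → HasDerivAt D (D' t) t) (hS0 : ∀ t, 0 ≤ t → 0 ≤ S t)
    (hkey : ∀ t, 0 ≤ t → ∀ M, 0 < M →
      -(M * lg M - M / (1 + M)) - kap M * (D t - M * lg M) ≤ D' t)
    {N : ℝ} (hN : 0 < N) (hSN : n * g N ≤ S 0) {T : ℝ} (hT : 0 ≤ T) :
    n * g (N * Real.exp (-T)) ≤ S T := by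
  have step : ∀ t0 N0, 0 ≤ t0 → 0 < N0 → N0 * lg N0 ≤ D t0 → n * g N0 ≤ S t0 := by
    intro t0 N0 ht0 hN0 hD0
    have hcmp : ∀ t, t0 ≤ t →
        N0 * Real.exp (-(t - t0)) * lg (N0 * Real.exp (-(t - t0))) ≤ D t := by
      intro t ht
      obtain ⟨w, ew⟩ : ∃ w : ℝ → ℝ, w = fun r =>
          (D r - N0 * Real.exp (-(r - t0)) * lg (N0 * Real.exp (-(r - t0)))) * Real.exp (-r) := ⟨_, rfl⟩
      have hpos : ∀ r, 0 < N0 * Real.exp (-(r - t0)) := fun r => by positivity
      have hw : ∀ r, t0 ≤ r → HasDerivAt w _ r := fun r hr =>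
        (((hD r (ht0.trans hr)).sub ((hasDerivAt_mul_lg (hpos r)).comp r (hasDerivAt_decay N0 t0 r))).mul
          (hasDerivAt_id r).neg.exp).congr_of_eventuallyEq (Eventually.of_forall fun x => by simp [ew])
      suffices 0 ≤ w t by
        rw [ew] at this
        linarith [nonneg_of_mul_nonneg_left this (Real.exp_pos _)]
      refine nonneg_of_deriv ht ?_ (fun r hr => hw r hr.1) fun r hr hneg => ?_
      · rw [ew]
        exact mul_nonneg (by simpa using hD0) (Real.exp_pos _).le
      · obtain ⟨M, eM⟩ : ∃ M, M = N0 * Real.exp (-(r - t0)) := ⟨_, rfl⟩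
        have hM : 0 < M := eM ▸ hpos r
        have hk := hkey r (ht0.trans hr.1) M hM
        simp only [ew, ← eM] at hneg
        have he : D r - M * lg M < 0 := neg_of_mul_neg_left hneg (Real.exp_pos _).le
        have hk2 := neg_one_le_kap hM
        simp only [Pi.sub_apply, Function.comp_apply, id, ← eM, Pi.neg_apply]
        have hM1 : (1 + M) ≠ 0 := by linarith
        have e : (lg M - 1 / (1 + M)) * -M = -(M * lg M - M / (1 + M)) := by field_simp
        rw [e]
        nlinarith [mul_nonneg (sub_nonneg.2 hk2) (neg_pos.2 he).le, Real.exp_pos (-r)]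
    have hanti : ∀ t, t0 ≤ t → n * g N0 - n * g (N0 * Real.exp (-(t - t0))) ≤ S t0 := by
      intro t ht
      have h : AntitoneOn (fun r => S r - n * g (N0 * Real.exp (-(r - t0)))) (Icc t0 t) := by
        have hd : ∀ r ∈ Icc t0 t, HasDerivAt (fun r => S r - n * g (N0 * Real.exp (-(r - t0))))
            (-(n * D r) - n * (lg (N0 * Real.exp (-(r - t0))) * -(N0 * Real.exp (-(r - t0))))) r :=
          fun r hr => (hS r (ht0.trans hr.1)).sub
            (((Fock.hasDerivAt_g (by positivity)).comp r (hasDerivAt_decay N0 t0 r)).const_mul _)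
        refine antitoneOn_of_hasDerivWithinAt_nonpos (convex_Icc t0 t)
          (fun r hr => (hd r hr).continuousAt.continuousWithinAt)
          (f' := fun r => -(n * D r) - n * (lg (N0 * Real.exp (-(r - t0))) * -(N0 * Real.exp (-(r - t0)))))
          (fun r hr => ?_) fun r hr => ?_
        all_goals rw [interior_Icc] at hr
        · exact (hd r ⟨hr.1.le, hr.2.le⟩).hasDerivWithinAt
        · nlinarith [mul_le_mul_of_nonneg_left (hcmp r hr.1.le) (Nat.cast_nonneg n : (0 : ℝ) ≤ n)]
      have h' := h (left_mem_Icc.2 ht) (right_mem_Icc.2 ht) ht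
      simp only [sub_self, neg_zero, Real.exp_zero, mul_one] at h'
      linarith [hS0 t (ht0.trans ht)]
    have hlim : Tendsto (fun t => n * g N0 - n * g (N0 * Real.exp (-(t - t0)))) atTop (𝓝 (n * g N0)) := by
      have h1 : Tendsto (fun t => N0 * Real.exp (-(t - t0))) atTop (𝓝 0) := by
        simpa [Function.comp_def, sub_eq_add_neg] using (Real.tendsto_exp_neg_atTop_nhds_zero.comp
          (tendsto_atTop_add_const_right atTop (-t0) tendsto_id)).const_mul N0
      have h2 := ((Fock.continuous_g.tendsto 0).comp h1).const_mul (n : ℝ)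
      simpa [Fock.g_zero] using h2.const_sub (n * g N0)
    exact le_of_tendsto hlim (eventually_atTop.2 ⟨t0, hanti⟩)
  have hfin : 0 ≤ (fun t => S t - n * g (N * Real.exp (-t))) T := by
    refine nonneg_of_deriv hT (w := fun t => S t - n * g (N * Real.exp (-t)))
      (w' := fun t => -(n * D t) - n * (lg (N * Real.exp (-t)) * -(N * Real.exp (-t)))) ?_
      (fun t ht => ?_) fun t ht hneg => ?_
    · simpa using hSN
    · have h := hasDerivAt_decay N 0 t
      simp only [sub_zero] at h
      exact (hS t ht.1).sub (((Fock.hasDerivAt_g (by positivity)).comp t h).const_mul _)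
    · have hlt : D t < N * Real.exp (-t) * lg (N * Real.exp (-t)) := lt_of_not_ge fun hge => by
        have := step t (N * Real.exp (-t)) ht.1 (by positivity) hge

        linarith
      nlinarith [mul_le_mul_of_nonneg_left hlt.le (Nat.cast_nonneg n : (0 : ℝ) ≤ n)]
  simpa using hfin

end Vale.Agent.P369.Classical
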