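import Mathlib
import Vale.Agent.P369.Classical.Scalar

/-!
# P369: the entropy bound along an abstract curve of states
-/

namespace Vale.Agent.P369.Classical

open Matrix MeasureTheory Set Filter VAgent.P358
open scoped Topology ComplexOrder Interval
open Vale.Agent.P369.Fock (g)

/-- A continuous function touched from above, at each point, by functions of slope zero decreases. -/
theorem le_of_touch {F : ℝ → ℝ} {a b : ℝ} (hab : a ≤ b) (hF : ContinuousOn F (Icc a b))
    (h : ∀ x ∈ Icc a b, ∃ Φ : ℝ → ℝ, (∀ᶠ r in 𝓝 x, F r ≤ Φ r) ∧ Φ x = F x ∧ HasDerivAt Φ 0 x) :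
    F b ≤ F a := by
  refine image_le_of_liminf_slope_right_le_deriv_boundary hF (B := fun _ => F a) (B' := fun _ => 0)
    le_rfl continuousOn_const (fun x _ => hasDerivWithinAt_const _ _ _) (fun x hx r hr => ?_)
    (right_mem_Icc.2 hab)
  obtain ⟨Φ, hle, heq, hd⟩ := h x (Ico_subset_Icc_self hx)
  refine Eventually.frequently ?_
  filter_upwards [(((hasDerivAt_iff_tendsto_slope.1 hd).mono_left
      (nhdsWithin_mono _ fun y hy => ne_of_gt (Set.mem_Ioi.1 hy))).eventually_lt_const hr),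
    nhdsWithin_le_nhds hle, self_mem_nhdsWithin] with z hz hzle hzgt
  refine lt_of_le_of_lt ?_ hz
  rw [slope_def_field, slope_def_field, heq]
  exact div_le_div_of_nonneg_right (by linarith) (sub_nonneg.2 (Set.mem_Ioi.1 hzgt).le)

variable {ι : Type*} [Fintype ι] [DecidableEq ι]

theorem nent_nonneg {M : Matrix ι ι ℂ} (hM : M.PosSemidef) (htr : M.trace = 1) : 0 ≤ nent M := by
  rw [nent, dif_pos hM.1]
  have hsum : ∑ i, hM.1.eigenvalues i = 1 := by
    simpa using (congrArg Complex.re (hM.1.trace_eq_sum_eigenvalues.symm.trans htr))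
  refine Finset.sum_nonneg fun i _ => Real.negMulLog_nonneg (hM.eigenvalues_nonneg i) ?_
  exact hsum ▸ Finset.single_le_sum (fun k _ => hM.eigenvalues_nonneg k) (Finset.mem_univ i)

theorem nent_unitary_conj {U M : Matrix ι ι ℂ} (hU : U * Uᴴ = 1) (hU' : Uᴴ * U = 1) (hM : M.IsHermitian) :
    nent (Uᴴ * M * U) = nent M := by
  obtain ⟨W, hW, -, hdW⟩ := spectral_decomp hM
  conv_lhs => rw [hdW]
  rw [show Uᴴ * (W * Matrix.diagonal (fun i => ((hM.eigenvalues i : ℝ) : ℂ)) * Wᴴ) * U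
      = Uᴴ * W * Matrix.diagonal (fun i => ((hM.eigenvalues i : ℝ) : ℂ)) * (Uᴴ * W)ᴴ by
    simp [Matrix.conjTranspose_mul, Matrix.mul_assoc],
    nent_eq_of_diag _ (by
      rw [Matrix.conjTranspose_mul, Matrix.conjTranspose_conjTranspose, Matrix.mul_assoc,
        ← Matrix.mul_assoc W, hW, Matrix.one_mul, hU']), nent, dif_pos hM]

/-- The entropy bound along a curve whose rate satisfies the two differential inequalities. -/
theorem curve_entropy_bound {n : ℕ} {a : ℝ} (ha : 0 < a) {M M' : ℝ → Matrix ι ι ℂ}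
    (hpd : ∀ t, (M t).PosDef) (htr : ∀ t, (M t).trace = 1) (hMc : Continuous M)
    (hd : ∀ t, -a < t → ∀ i j, HasDerivAt (fun r => M r i j) (M' t i j) t) {f ft fs : ℝ → ℝ → ℝ}
    (hrate : ∀ t, -a < t → ∀ (U : Matrix ι ι ℂ) (p : ι → ℝ), U * Uᴴ = 1 → Uᴴ * U = 1 → (∀ i, 0 < p i) →
      M t = U * diagonal (fun i => (p i : ℂ)) * Uᴴ →
        ∑ i, (-Real.log (p i) - 1) * ((Uᴴ * M' t * U) i i).re = -(n * ∫ s in (0 : ℝ)..1, f t s))
    (hf : ContinuousOn (Function.uncurry f) (Ioi (-a) ×ˢ Icc 0 1))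
    (hft : ContinuousOn (Function.uncurry ft) (Ioi (-a) ×ˢ Icc 0 1))
    (hdt : ∀ t, -a < t → ∀ s ∈ Icc (0 : ℝ) 1, HasDerivAt (fun r => f r s) (ft t s) t)
    (hds : ∀ t, -a < t → ∀ s ∈ Ioo (0 : ℝ) 1, HasDerivAt (f t) (fs t s) s)
    (h1 : ∀ t, -a < t → ∀ s ∈ Ioo (0 : ℝ) 1, f t s ^ 2 - f t s ≤ ft t s)
    (h2 : ∀ t, -a < t → ∀ s ∈ Ioo (0 : ℝ) 1, s * fs t s ≤ ft t s)
    {N : ℝ} (hN : 0 < N) (hSN : n * g N ≤ nent (M 0)) {T : ℝ} (hT : 0 ≤ T) :
    n * g (N * Real.exp (-T)) ≤ nent (M T) := by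
  have hslice : ∀ (φ : ℝ → ℝ → ℝ), ContinuousOn (Function.uncurry φ) (Ioi (-a) ×ˢ Icc 0 1) →
      ∀ t, -a < t → ContinuousOn (φ t) (Icc 0 1) := fun φ hφ t ht =>
    hφ.comp (Continuous.prodMk_right t).continuousOn fun s hs => ⟨ht, hs⟩
  have hint : ∀ (φ : ℝ → ℝ → ℝ), ContinuousOn (Function.uncurry φ) (Ioi (-a) ×ˢ Icc 0 1) →
      ∀ t, -a < t → IntervalIntegrable (φ t) volume 0 1 := fun φ hφ t ht =>
    (uIcc_of_le (zero_le_one (α := ℝ)) ▸ hslice φ hφ t ht).intervalIntegrable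
  have hD : ∀ t, -a < t →
      HasDerivAt (fun r => ∫ s in (0 : ℝ)..1, f r s) (∫ s in (0 : ℝ)..1, ft t s) t := by
    intro t ht
    obtain ⟨r, hr0, hr⟩ : ∃ r : ℝ, 0 < r ∧ -a < t - r := ⟨(t + a) / 2, by linarith, by linarith⟩
    have hsub : Icc (t - r) (t + r) ×ˢ Icc (0 : ℝ) 1 ⊆ Ioi (-a) ×ˢ Icc 0 1 :=
      prod_mono (fun x hx => hr.trans_le hx.1) subset_rfl
    obtain ⟨C, hC⟩ := (isCompact_Icc.prod isCompact_Icc).exists_bound_of_continuousOn (hft.mono hsub)
    have hm : ∀ φ : ℝ → ℝ, ContinuousOn φ (Icc (0 : ℝ) 1) → AEStronglyMeasurable φ (volume.restrict (Ι (0 : ℝ) 1)) :=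
      fun φ h => (h.mono (by rw [uIoc_of_le zero_le_one]; exact Ioc_subset_Icc_self)).aestronglyMeasurable
        measurableSet_uIoc
    refine (intervalIntegral.hasDerivAt_integral_of_dominated_loc_of_deriv_le (F := f) (F' := ft)
      (Icc_mem_nhds (by linarith : t - r < t) (by linarith : t < t + r)) ?_ (hint f hf t ht)
      (hm _ (hslice ft hft t ht)) ?_ (intervalIntegrable_const (c := C)) ?_).2
    · filter_upwards [Ioi_mem_nhds ht] with x hx using hm _ (hslice f hf x hx)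
    · refine ae_of_all _ fun s hs x hx => ?_
      rw [uIoc_of_le zero_le_one] at hs
      exact hC (x, s) ⟨hx, Ioc_subset_Icc_self hs⟩
    · refine ae_of_all _ fun s hs x hx => ?_
      rw [uIoc_of_le zero_le_one] at hs
      exact hdt x (hr.trans_le hx.1) s (Ioc_subset_Icc_self hs)
  obtain ⟨D, eD⟩ : ∃ D : ℝ → ℝ, D = fun r => ∫ s in (0 : ℝ)..1, f r s := ⟨_, rfl⟩
  have hDc : ContinuousOn D (Ioi (-a)) := fun r hr => eD ▸ (hD r hr).continuousAt.continuousWithinAt
  obtain ⟨P, eP⟩ : ∃ P : ℝ → ℝ, P = fun r => ∫ u in (0 : ℝ)..r, (n : ℝ) * D u := ⟨_, rfl⟩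
  have hP : ∀ r, -a < r → HasDerivAt P (n * D r) r := by
    intro r hr
    have hc : ContinuousOn (fun u => (n : ℝ) * D u) (Ioi (-a)) := continuousOn_const.mul hDc
    rw [eP]
    refine intervalIntegral.integral_hasDerivAt_right ((hc.mono fun u hu => ?_).intervalIntegrable)
      (hc.stronglyMeasurableAtFilter isOpen_Ioi r hr) (hc.continuousAt (Ioi_mem_nhds hr))
    exact lt_of_lt_of_le (lt_min (neg_lt_zero.2 ha) hr) hu.1
  have hScont : Continuous fun r => nent (M r) :=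
    continuous_nent _ hMc fun r => (hpd r).posSemidef
  obtain ⟨F, eF⟩ : ∃ F : ℝ → ℝ, F = fun r => nent (M r) + P r := ⟨_, rfl⟩
  have htouch : ∀ x, -a < x → ∃ Φ : ℝ → ℝ, (∀ r, F r ≤ Φ r) ∧ Φ x = F x ∧ HasDerivAt Φ 0 x := by
    intro x hx
    obtain ⟨U, hU, hU', hdec⟩ := spectral_decomp (hpd x).1
    obtain ⟨p, ep⟩ : ∃ p, p = (hpd x).1.eigenvalues := ⟨_, rfl⟩
    rw [← ep] at hdec
    have hp : ∀ i, 0 < p i := fun i => ep ▸ (hpd x).eigenvalues_pos i
    obtain ⟨q, eq⟩ : ∃ q : ι → ℝ → ℝ, q = fun i r => ((Uᴴ * M r * U) i i).re := ⟨_, rfl⟩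
    have hqx : ∀ i, q i x = p i := fun i => by
      have : Uᴴ * M x * U = diagonal fun k => (p k : ℂ) := by
        rw [hdec]
        simp only [Matrix.mul_assoc, hU', Matrix.mul_one]
        rw [← Matrix.mul_assoc, hU', Matrix.one_mul]
      simp [eq, this]
    have hq : ∀ i, HasDerivAt (q i) ((Uᴴ * M' x * U) i i).re x := fun i => by
      rw [eq]
      refine Complex.reCLM.hasFDerivAt.comp_hasDerivAt x ?_
      simp only [Matrix.mul_apply, Finset.sum_mul]
      exact HasDerivAt.fun_sum fun y _ => HasDerivAt.fun_sum fun z _ =>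
        ((hd x hx z y).const_mul _).mul_const _
    refine ⟨fun r => (∑ i, Real.negMulLog (q i r)) + P r, fun r => ?_, ?_, ?_⟩
    · rw [eF]
      refine add_le_add ?_ le_rfl
      rw [← nent_unitary_conj hU hU' (hpd r).1, eq]
      exact nent_le_sum_diag ((hpd r).posSemidef.conjTranspose_mul_mul_same U)
    · simp only [eF, hqx]
      conv_rhs => rw [hdec, nent_eq_of_diag U hU]
    · refine ((HasDerivAt.fun_sum fun i _ => (Real.hasDerivAt_negMulLog
        ((hqx i).symm ▸ (hp i).ne')).comp x (hq i)).add (hP x hx)).congr_deriv ?_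
      simp only [hqx]
      rw [hrate x hx U p hU hU' hp hdec, eD]
      ring
  have hFc : ContinuousOn F (Ioi (-a)) := fun r hr =>
    eF ▸ hScont.continuousWithinAt.add (hP r hr).continuousAt.continuousWithinAt
  have hFconst : ∀ x y, -a < x → x ≤ y → F x = F y := by
    intro x y hx hxy
    refine le_antisymm ?_ (le_of_touch hxy (hFc.mono fun u hu => hx.trans_le hu.1) fun u hu => ?_)
    · have h := le_of_touch (F := fun u => F (-u)) (neg_le_neg hxy) ?_ fun u hu => ?_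
      · simpa using h
      · exact hFc.comp continuous_neg.continuousOn fun u hu => hx.trans_le (by linarith [hu.2])
      · obtain ⟨Φ, hle, heq, hΦ⟩ := htouch (-u) (hx.trans_le (by linarith [hu.2]))
        exact ⟨fun r => Φ (-r), Eventually.of_forall fun r => hle _, heq,
          by simpa [Function.comp_def] using hΦ.comp u (hasDerivAt_neg u)⟩
    · obtain ⟨Φ, hle, heq, hΦ⟩ := htouch u (hx.trans_le hu.1)
      exact ⟨Φ, Eventually.of_forall hle, heq, hΦ⟩
  refine entropy_bound (S := fun r => nent (M r)) (D := D) (D' := fun r => ∫ s in (0 : ℝ)..1, ft r s)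
    (fun t ht => ?_) (fun t ht => eD ▸ hD t (by linarith))
    (fun t _ => nent_nonneg (hpd t).posSemidef (htr t)) (fun t ht M0 hM0 => ?_) hN hSN hT
  · refine (((hP t (by linarith)).const_sub (F 0))).congr_of_eventuallyEq ?_
    filter_upwards [Ioi_mem_nhds (show -a < t by linarith)] with r hr
    have : F r = F 0 := by
      rcases le_total r 0 with h | h
      · exact hFconst r 0 hr h
      · exact (hFconst 0 r (by linarith) h).symm
    rw [← this, eF]
    ring
  · rw [eD]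
    exact rate_bound hM0 (hslice f hf t (by linarith)) (hslice ft hft t (by linarith))
      (hds t (by linarith)) (h1 t (by linarith)) (h2 t (by linarith))

end Vale.Agent.P369.Classical
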