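import Mathlib
import Vale.Agent.P369.Fock.Defs
import Vale.Agent.P369.Classical.Ineq

/-!
# P369: Gram matrices of weighted coherent vectors
-/

namespace Vale.Agent.P369.Classical

open Matrix Finset Filter
open scoped ComplexConjugate ComplexOrder Topology
open Vale.Agent.P369.Fock (Idx photons)

/-- A product of absolutely convergent series is the series of products. -/
theorem hasSum_pi_prod : ∀ {n : ℕ} {f : Fin n → ℕ → ℂ} {s : Fin n → ℂ},
    (∀ k, HasSum (f k) (s k)) → (∀ k, Summable fun m => ‖f k m‖) →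
    HasSum (fun a : Fin n → ℕ => ∏ k, f k (a k)) (∏ k, s k)
      ∧ Summable fun a : Fin n → ℕ => ‖∏ k, f k (a k)‖ := by
  intro n
  induction n with
  | zero =>
    intro f s _ _
    simp only [Finset.univ_eq_empty, Finset.prod_empty]
    exact ⟨(hasSum_unique _), ⟨_, hasSum_unique _⟩⟩
  | succ n ih =>
    intro f s hs hn
    obtain ⟨h1, h2⟩ := ih (fun k => hs k.succ) (fun k => hn k.succ)
    have hp : Summable fun x : ℕ × (Fin n → ℕ) => ‖f 0 x.1 * ∏ k, f k.succ (x.2 k)‖ := by
      simp only [norm_mul]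
      exact (hn 0).mul_of_nonneg h2 (fun _ => norm_nonneg _) (fun _ => norm_nonneg _)
    have e : ∀ x : ℕ × (Fin n → ℕ), ∏ k, f k (Fin.consEquiv (fun _ => ℕ) x k)
        = f 0 x.1 * ∏ k, f k.succ (x.2 k) := fun x => by
      simp [Fin.prod_univ_succ]
    constructor
    · rw [← (Fin.consEquiv fun _ => ℕ).hasSum_iff, Fin.prod_univ_succ]
      exact ((hs 0).mul h1 hp.of_norm).congr_fun e
    · rw [← (Fin.consEquiv fun _ => ℕ).summable_iff]
      exact hp.congr fun x => by rw [Function.comp_apply, e]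

variable {ι : Type*} [Fintype ι] {n : ℕ}

/-- The exponent of the overlap of two coherent vectors. -/
noncomputable def ov (z : Fin n → ι → ℂ) (l m : ι) : ℂ :=
  ∑ k, (conj (z k l) * z k m - (conj (z k l) * z k l + conj (z k m) * z k m) / 2)

/-- The Fock coefficient of a coherent vector. -/
noncomputable def cv {n : ℕ} (w : Fin n → ℂ) (a : Idx n) : ℂ :=
  ∏ k, (Real.exp (-(Complex.normSq (w k)) / 2) : ℂ) * w k ^ a k / (Real.sqrt (a k).factorial : ℂ)

theorem hasSum_cv (z : Fin n → ι → ℂ) (l m : ι) :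
    HasSum (fun a : Idx n => conj (cv (fun k => z k l) a) * cv (fun k => z k m) a)
      (Complex.exp (ov z l m)) := by
  obtain ⟨f, ef⟩ : ∃ f : Fin n → ℕ → ℂ, f = fun k j =>
      Complex.exp (-((conj (z k l) * z k l + conj (z k m) * z k m) / 2))
        * ((conj (z k l) * z k m) ^ j / j.factorial) := ⟨_, rfl⟩
  have h1 : ∀ k, HasSum (f k) (Complex.exp (conj (z k l) * z k m
      - (conj (z k l) * z k l + conj (z k m) * z k m) / 2)) := fun k => by
    rw [ef, sub_eq_neg_add, Complex.exp_add]
    refine HasSum.mul_left _ ?_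
    rw [Complex.exp_eq_exp_ℂ]
    exact NormedSpace.expSeries_div_hasSum_exp _
  have h2 : ∀ k, Summable fun j => ‖f k j‖ := fun k => by
    simp only [ef, norm_mul, norm_div, norm_pow, Complex.norm_natCast]
    exact (Real.summable_pow_div_factorial _).mul_left _
  have h := (hasSum_pi_prod h1 h2).1
  rw [← Complex.exp_sum] at h
  refine h.congr_fun fun a => ?_
  rw [cv, cv, map_prod, ← Finset.prod_mul_distrib]
  refine Finset.prod_congr rfl fun k _ => ?_
  rw [ef]
  simp only [map_div₀, map_mul, map_pow, Complex.conj_ofReal]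
  rw [← neg_div, div_mul_div_comm, ← Complex.ofReal_mul, Real.mul_self_sqrt (Nat.cast_nonneg _),
    Complex.ofReal_natCast, Complex.ofReal_exp, Complex.ofReal_exp, mul_pow]
  push_cast
  rw [Complex.normSq_eq_conj_mul_self, Complex.normSq_eq_conj_mul_self, neg_add, add_div,
    Complex.exp_add]
  ring

/-- The Gram matrix after attenuation by `e^{-t}`. -/
noncomputable def gram (w : ι → ℝ) (z : Fin n → ι → ℂ) (t : ℝ) : Matrix ι ι ℂ :=
  Matrix.of fun l m => (Real.sqrt (w l) * Real.sqrt (w m) : ℝ) * Complex.exp ((Real.exp (-t) : ℝ) * ov z l m)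

/-- The attenuated amplitudes. -/
noncomputable def amp (z : Fin n → ι → ℂ) (t : ℝ) (k : Fin n) (l : ι) : ℂ :=
  (Real.exp (-t / 2) : ℝ) * z k l

omit [Fintype ι] in
theorem exp_mul_ov (z : Fin n → ι → ℂ) (t : ℝ) (l m : ι) :
    ((Real.exp (-t) : ℝ) : ℂ) * ov z l m = ov (amp z t) l m := by
  have h : ((Real.exp (-t) : ℝ) : ℂ) = (Real.exp (-t / 2) : ℂ) * (Real.exp (-t / 2) : ℂ) := by
    rw [← Complex.ofReal_mul, ← Real.exp_add, add_halves]
  simp only [ov, amp, Finset.mul_sum, map_mul, Complex.conj_ofReal, h]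
  exact Finset.sum_congr rfl fun k _ => by ring

theorem hasSum_gram (w : ι → ℝ) (z : Fin n → ι → ℂ) (t : ℝ) (l m : ι) :
    HasSum (fun a : Idx n => conj ((Real.sqrt (w l) : ℂ) * cv (fun k => amp z t k l) a)
      * ((Real.sqrt (w m) : ℂ) * cv (fun k => amp z t k m) a)) (gram w z t l m) := by
  rw [gram, Matrix.of_apply, exp_mul_ov, Complex.ofReal_mul]
  refine ((hasSum_cv (amp z t) l m).mul_left _).congr_fun fun a => ?_
  rw [map_mul, Complex.conj_ofReal]
  ring

omit [Fintype ι] in
theorem ov_self (z : Fin n → ι → ℂ) (l : ι) : ov z l l = 0 := by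
  simp [ov]

theorem gram_diag {w : ι → ℝ} (hw : ∀ l, 0 ≤ w l) (z : Fin n → ι → ℂ) (t : ℝ) (l : ι) :
    gram w z t l l = (w l : ℂ) := by
  rw [gram, Matrix.of_apply, ov_self, mul_zero, Complex.exp_zero, mul_one, Real.mul_self_sqrt (hw l)]

theorem trace_gram {w : ι → ℝ} (hw : ∀ l, 0 ≤ w l) (hsum : ∑ l, w l = 1) (z : Fin n → ι → ℂ) (t : ℝ) :
    (gram w z t).trace = 1 := by
  simp only [Matrix.trace, Matrix.diag_apply, gram_diag hw, ← Complex.ofReal_sum, hsum, Complex.ofReal_one]

theorem gram_hermitian (w : ι → ℝ) (z : Fin n → ι → ℂ) (t : ℝ) : (gram w z t).IsHermitian := by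
  ext l m
  rw [Matrix.conjTranspose_apply, gram, Matrix.of_apply, Matrix.of_apply, RCLike.star_def, map_mul,
    Complex.conj_ofReal, ← Complex.exp_conj, map_mul, Complex.conj_ofReal, mul_comm (Real.sqrt (w m))]
  congr 3
  simp only [ov, map_sum, map_sub, map_div₀, map_add, map_mul, Complex.conj_conj, map_ofNat]
  exact Finset.sum_congr rfl fun k _ => by ring

/-- A combination of distinct coherent vectors vanishes only if all coefficients do. -/
theorem cv_independent [DecidableEq ι] (z : Fin n → ι → ℂ) (hz : Function.Injective fun l k => z k l)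
    (c : ι → ℂ) (h : ∀ a : Idx n, ∑ l, c l * cv (fun k => z k l) a = 0) : c = 0 := by
  obtain ⟨e, he⟩ : ∃ e : ι → ℂ,
      e = fun l => c l * ∏ k, (Real.exp (-(Complex.normSq (z k l)) / 2) : ℂ) := ⟨_, rfl⟩
  have hmono : ∀ a : Idx n, ∑ l, e l * ∏ k, z k l ^ a k = 0 := by
    intro a
    have h' := h a
    simp only [cv, Finset.prod_div_distrib, Finset.prod_mul_distrib, mul_div_assoc', ← Finset.sum_div] at h'
    rw [div_eq_zero_iff, or_iff_left (Finset.prod_ne_zero_iff.2 fun k _ => Complex.ofReal_ne_zero.2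
      (Real.sqrt_pos.2 (Nat.cast_pos.2 (a k).factorial_pos)).ne')] at h'
    simpa only [he, mul_assoc] using h'
  have hpoly : ∀ p : MvPolynomial (Fin n) ℂ, ∑ l, e l * MvPolynomial.eval (fun k => z k l) p = 0 := by
    intro p
    induction p using MvPolynomial.induction_on' with
    | monomial d r =>
      simp only [MvPolynomial.eval_monomial]
      have h' := hmono d
      calc _ = r * ∑ l, e l * ∏ k, z k l ^ d k := by
            rw [Finset.mul_sum]
            refine Finset.sum_congr rfl fun l _ => ?_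
            rw [Finsupp.prod_fintype _ _ (fun k => pow_zero _)]
            ring
        _ = 0 := by rw [h', mul_zero]
    | add p q hp hq => simp only [map_add, mul_add, Finset.sum_add_distrib, hp, hq, add_zero]
  funext l
  have hsep : ∀ m : {m // m ∈ Finset.univ.erase l}, ∃ k, z k m ≠ z k l := fun m =>
    Function.ne_iff.1 fun he' => Finset.ne_of_mem_erase m.2 (hz he')
  choose k hk using hsep
  have hp := hpoly (∏ m ∈ (Finset.univ.erase l).attach, (MvPolynomial.X (k m) - MvPolynomial.C (z (k m) m)))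
  rw [Finset.sum_eq_single l] at hp
  · rcases mul_eq_zero.1 hp with hp | hp
    · rw [he] at hp
      rcases mul_eq_zero.1 hp with hp | hp
      · exact hp
      · exact absurd hp (Finset.prod_ne_zero_iff.2 fun k _ => Complex.ofReal_ne_zero.2 (Real.exp_ne_zero _))
    · rw [map_prod, Finset.prod_eq_zero_iff] at hp
      obtain ⟨m, -, hm'⟩ := hp
      simp only [map_sub, MvPolynomial.eval_X, MvPolynomial.eval_C, sub_eq_zero] at hm'
      exact absurd hm'.symm (hk m)
  · intro m _ hm
    rw [map_prod, Finset.prod_eq_zero (i := ⟨m, by simp [hm]⟩) (Finset.mem_attach _ _) (by simp), mul_zero]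
  · exact fun h' => absurd (Finset.mem_univ l) h'

theorem gram_posDef [DecidableEq ι] {w : ι → ℝ} (hw : ∀ l, 0 < w l) (z : Fin n → ι → ℂ)
    (hz : Function.Injective fun l k => z k l) (t : ℝ) : (gram w z t).PosDef := by
  refine Matrix.PosDef.of_dotProduct_mulVec_pos (gram_hermitian w z t) fun c hc => ?_
  obtain ⟨u, hu⟩ : ∃ u : Idx n → ℂ,
      u = fun a => ∑ l, c l * ((Real.sqrt (w l) : ℂ) * cv (fun k => amp z t k l) a) := ⟨_, rfl⟩
  have hs : HasSum (fun a => ((Complex.normSq (u a) : ℝ) : ℂ)) (star c ⬝ᵥ (gram w z t *ᵥ c)) := by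
    simp only [dotProduct, mulVec, Pi.star_apply, RCLike.star_def, Finset.mul_sum]
    refine (hasSum_sum fun l _ => hasSum_sum fun m _ =>
      ((hasSum_gram w z t l m).mul_right (c m)).mul_left (conj (c l))).congr_fun fun a => ?_
    rw [Complex.normSq_eq_conj_mul_self, hu]
    simp only [map_sum, map_mul, Finset.sum_mul, Finset.mul_sum]
    rw [Finset.sum_comm]
    exact Finset.sum_congr rfl fun l _ => Finset.sum_congr rfl fun m _ => by ring
  obtain ⟨a, ha⟩ : ∃ a, u a ≠ 0 := by
    by_contra hall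
    push Not at hall
    refine hc ?_
    have hinj : Function.Injective fun l k => amp z t k l := fun l m h => hz (funext fun k => by
      have := congrFun h k
      simpa [amp] using this)
    have h0 := cv_independent (amp z t) hinj (fun l => c l * (Real.sqrt (w l) : ℂ)) fun a => by
      have := hall a
      simp only [hu, ← mul_assoc] at this
      exact this
    funext l
    simpa [Real.sqrt_ne_zero'.2 (hw l)] using congrFun h0 l
  have hre := Complex.reCLM.hasSum hs
  simp only [Complex.reCLM_apply, Complex.ofReal_re] at hre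
  have hpos : 0 < (star c ⬝ᵥ (gram w z t *ᵥ c)).re :=
    lt_of_lt_of_le (Complex.normSq_pos.2 ha) (le_hasSum hre a fun b _ => Complex.normSq_nonneg _)
  refine Complex.lt_def.2 ⟨by simpa using hpos, ?_⟩
  have him := Complex.imCLM.hasSum hs
  simp only [Complex.imCLM_apply, Complex.ofReal_im] at him
  simpa using (him.unique hasSum_zero).symm

omit [Fintype ι] in
theorem gram_coherent (w : ι → ℝ) (z : Fin n → ι → ℂ) (t : ℝ) :
    IsCoherent (gram w z t) (amp z t) := by
  intro l p q
  simp only [gram, Matrix.of_apply, exp_mul_ov, Complex.ofReal_mul]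
  have e : ov (amp z t) p q + ov (amp z t) l l = ov (amp z t) p l + ov (amp z t) l q
      + ∑ k, conj (amp z t k p - amp z t k l) * (amp z t k q - amp z t k l) := by
    simp only [ov, ← Finset.sum_add_distrib, map_sub]
    exact Finset.sum_congr rfl fun k _ => by ring
  have h := congrArg Complex.exp e
  simp only [Complex.exp_add] at h
  linear_combination ((Real.sqrt (w p) : ℂ) * Real.sqrt (w q) * Real.sqrt (w l) * Real.sqrt (w l)) * h

theorem hasDerivAt_gram [DecidableEq ι] (w : ι → ℝ) (z : Fin n → ι → ℂ) (t : ℝ) (l m : ι) :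
    HasDerivAt (fun r => gram w z r l m)
      ((∑ k, gen (gram w z t) (diagonal (amp z t k))) l m) t := by
  have hr : HasDerivAt (fun r : ℝ => ((Real.exp (-r) : ℝ) : ℂ)) (-(Real.exp (-t) : ℝ) : ℂ) t := by
    simpa using ((hasDerivAt_id t).neg.exp).ofReal_comp
  simp only [gram, Matrix.of_apply]
  refine (((hr.mul_const (ov z l m)).cexp).const_mul _).congr_deriv ?_
  simp only [gen, Matrix.sum_apply, Matrix.add_apply, Matrix.neg_apply, Matrix.smul_apply, smul_eq_mul,
    diagonal_conjTranspose, diagonal_mul_diagonal, Matrix.diagonal_mul, Matrix.mul_diagonal, Pi.star_apply,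
    RCLike.star_def, Matrix.of_apply, exp_mul_ov]
  rw [neg_mul, exp_mul_ov]
  obtain ⟨E, hE⟩ : ∃ E, E = Complex.exp (ov (amp z t) l m) := ⟨_, rfl⟩
  rw [← hE, ov, ← Finset.sum_neg_distrib, Finset.mul_sum, Finset.mul_sum]
  refine Finset.sum_congr rfl fun k _ => ?_
  push_cast
  ring

omit [Fintype ι] in
theorem hasDerivAt_amp (z : Fin n → ι → ℂ) (t : ℝ) (k : Fin n) (l : ι) :
    HasDerivAt (fun r => amp z r k l) (-((1 / 2 : ℝ) : ℂ) * amp z t k l) t := by
  have h : HasDerivAt (fun r : ℝ => Real.exp (-r / 2)) (Real.exp (-t / 2) * (-1 / 2)) t :=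
    ((hasDerivAt_id t).neg.div_const 2).exp
  simp only [amp]
  refine (h.ofReal_comp.mul_const (z k l)).congr_deriv ?_
  push_cast
  ring

end Vale.Agent.P369.Classical
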