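import Mathlib
import Vale.Agent.P369.Classical.Coherent

/-!
# P369: photon statistics of coherent vectors
-/

namespace Vale.Agent.P369.Classical

open Finset
open scoped ComplexConjugate Topology
open Vale.Agent.P369.Fock (Idx photons)

variable {n : ℕ}

/-- The squared length of an amplitude vector. -/
noncomputable def sq2 (v : Fin n → ℂ) : ℝ := ∑ k, Complex.normSq (v k)

theorem sq2_nonneg (v : Fin n → ℂ) : 0 ≤ sq2 v := Finset.sum_nonneg fun _ _ => Complex.normSq_nonneg _

theorem continuous_sq2 : Continuous (sq2 (n := n)) := by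
  unfold sq2
  fun_prop

theorem sq2_smul (c : ℂ) (v : Fin n → ℂ) : sq2 (c • v) = Complex.normSq c * sq2 v := by
  simp [sq2, Finset.mul_sum]

theorem norm_sq_le_sq2 (v : Fin n → ℂ) : ‖v‖ ^ 2 ≤ sq2 v := by
  have h : ‖v‖ ≤ Real.sqrt (sq2 v) := (pi_norm_le_iff_of_nonneg (Real.sqrt_nonneg _)).2 fun k => by
    rw [Complex.norm_def]
    exact Real.sqrt_le_sqrt (Finset.single_le_sum (fun j _ => Complex.normSq_nonneg (v j)) (Finset.mem_univ k))
  calc ‖v‖ ^ 2 ≤ Real.sqrt (sq2 v) ^ 2 := pow_le_pow_left₀ (norm_nonneg _) h 2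
    _ = sq2 v := Real.sq_sqrt (sq2_nonneg v)

theorem sq2_le_norm_sq (v : Fin n → ℂ) : sq2 v ≤ n * ‖v‖ ^ 2 := by
  calc sq2 v ≤ ∑ _k : Fin n, ‖v‖ ^ 2 := Finset.sum_le_sum fun k _ => by
        rw [Complex.normSq_eq_norm_sq]
        exact pow_le_pow_left₀ (norm_nonneg _) (norm_le_pi_norm v k) 2
    _ = n * ‖v‖ ^ 2 := by simp

theorem continuous_cv (a : Idx n) : Continuous fun v : Fin n → ℂ => cv v a := by
  simp only [cv]
  fun_prop

theorem normSq_cv (v : Fin n → ℂ) (a : Idx n) :
    Complex.normSq (cv v a)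
      = ∏ k, Real.exp (-Complex.normSq (v k)) * (Complex.normSq (v k) ^ a k / (a k).factorial) := by
  rw [cv, map_prod]
  refine Finset.prod_congr rfl fun k _ => ?_
  rw [map_div₀, map_mul, map_pow, Complex.normSq_ofReal, Complex.normSq_ofReal,
    Real.mul_self_sqrt (Nat.cast_nonneg _), ← Real.exp_add, add_halves, mul_div_assoc]

theorem hasSum_normSq_cv (v : Fin n → ℂ) : HasSum (fun a : Idx n => Complex.normSq (cv v a)) 1 := by
  have h := hasSum_cv (fun k (_ : Unit) => v k) () ()
  rw [ov_self, Complex.exp_zero] at h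
  simp only [← Complex.normSq_eq_conj_mul_self] at h
  exact Complex.hasSum_ofReal.1 (by simpa using h)

theorem norm_cv_le (v : Fin n → ℂ) (a : Idx n) : ‖cv v a‖ ≤ 1 := by
  rw [Complex.norm_def, Real.sqrt_le_one]
  exact le_hasSum (hasSum_normSq_cv v) a fun b _ => Complex.normSq_nonneg _

theorem norm_cv_mul_le (v : Fin n → ℂ) (a b : Idx n) : ‖cv v a * conj (cv v b)‖ ≤ 1 := by
  rw [norm_mul, Complex.norm_conj]
  exact mul_le_one₀ (norm_cv_le v a) (norm_nonneg _) (norm_cv_le v b)

theorem hasSum_poisson (x : ℝ) :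
    HasSum (fun j : ℕ => Real.exp (-x) * (x ^ j / j.factorial)) 1 := by
  have h : HasSum (fun j : ℕ => x ^ j / j.factorial) (Real.exp x) := by
    rw [Real.exp_eq_exp_ℝ]
    exact NormedSpace.expSeries_div_hasSum_exp _
  simpa [← Real.exp_add] using h.mul_left (Real.exp (-x))

theorem hasSum_poisson_mean (x : ℝ) :
    HasSum (fun j : ℕ => (j : ℝ) * (Real.exp (-x) * (x ^ j / j.factorial))) x := by
  have e : (fun j : ℕ => x * (Real.exp (-x) * (x ^ j / j.factorial)))
      = fun j : ℕ => ((j + 1 : ℕ) : ℝ) * (Real.exp (-x) * (x ^ (j + 1) / (j + 1).factorial)) := by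
    funext j
    have : (j.factorial : ℝ) ≠ 0 := Nat.cast_ne_zero.2 j.factorial_ne_zero
    rw [Nat.factorial_succ, pow_succ]
    push_cast
    field_simp
  have h := (hasSum_poisson x).mul_left x
  rw [mul_one, e] at h
  simpa using (hasSum_nat_add_iff (f := fun j : ℕ => (j : ℝ) * (Real.exp (-x) * (x ^ j / j.factorial))) 1).1 h

theorem hasSum_photons_cv (v : Fin n → ℂ) :
    HasSum (fun a : Idx n => (photons a : ℝ) * Complex.normSq (cv v a)) (sq2 v) := by
  have h : ∀ k₀, HasSum (fun a : Idx n => (a k₀ : ℝ) * Complex.normSq (cv v a)) (Complex.normSq (v k₀)) := by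
    intro k₀
    obtain ⟨f, ef⟩ : ∃ f : Fin n → ℕ → ℝ, f = fun k (j : ℕ) => (if k = k₀ then (j : ℝ) else 1)
        * (Real.exp (-Complex.normSq (v k)) * (Complex.normSq (v k) ^ j / j.factorial)) := ⟨_, rfl⟩
    have hs : ∀ k, HasSum (f k) (if k = k₀ then Complex.normSq (v k) else 1) := fun k => by
      rw [ef]
      rcases eq_or_ne k k₀ with rfl | hk
      · simpa using hasSum_poisson_mean (Complex.normSq (v k))
      · simpa [hk] using hasSum_poisson (Complex.normSq (v k))
    have hn : ∀ k j, 0 ≤ f k j := fun k j => by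
      rw [ef]
      refine mul_nonneg (by split_ifs <;> positivity) (mul_nonneg (Real.exp_pos _).le ?_)
      exact div_nonneg (pow_nonneg (Complex.normSq_nonneg _) _) (Nat.cast_nonneg _)
    have hc : ∀ k, HasSum (fun j => ((f k j : ℝ) : ℂ)) ((if k = k₀ then Complex.normSq (v k) else 1 : ℝ) : ℂ) :=
      fun k => Complex.hasSum_ofReal.2 (hs k)
    have hab : ∀ k, Summable fun j => ‖((f k j : ℝ) : ℂ)‖ := fun k =>
      (hs k).summable.congr fun j => by rw [Complex.norm_real, Real.norm_of_nonneg (hn k j)]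
    have hp := (hasSum_pi_prod hc hab).1
    simp only [← Complex.ofReal_prod] at hp
    have hp' := Complex.hasSum_ofReal.1 hp
    rw [Finset.prod_ite_eq' Finset.univ k₀ fun k => Complex.normSq (v k), if_pos (Finset.mem_univ k₀)] at hp'
    refine hp'.congr_fun fun a => ?_
    rw [normSq_cv]
    simp only [ef]
    conv_rhs => rw [Finset.prod_mul_distrib, Finset.prod_ite_eq' Finset.univ k₀ fun k => (a k : ℝ),
      if_pos (Finset.mem_univ k₀)]
  have h2 := hasSum_sum (s := Finset.univ) fun k _ => h k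
  refine h2.congr_fun fun a => ?_
  rw [photons, Nat.cast_sum, Finset.sum_mul]

end Vale.Agent.P369.Classical
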