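import Mathlib
import Vale.Agent.P369.Classical.Coherent
import Vale.Agent.P369.Classical.Rate
import Vale.Agent.P369.Classical.Curve

/-!
# P369: the entropy bound along the attenuator for mixtures of coherent states
-/

namespace Vale.Agent.P369.Classical

open Matrix MeasureTheory Set Filter VAgent.P358
open scoped ComplexOrder Topology
open Vale.Agent.P369.Fock (g)

variable {ι : Type*} [Fintype ι] [DecidableEq ι] {n : ℕ}

/-- The normalised sum of the gaps. -/
noncomputable def cavg (M : Matrix ι ι ℂ) (z : Fin n → ι → ℂ) (s : ℝ) : ℝ :=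
  (∑ j, gap M (sol s M (diagonal (z j))) (diagonal (z j))) / n

/-- The derivative of one gap in time. -/
noncomputable def gapDT (M G Z Y Yd : Matrix ι ι ℂ) : ℝ :=
  gap M Yd Z + (trace (Yᴴ * (G * M * Z + M * G * Z - G * Z * M - M * Z * G
    - ((1 / 2 : ℝ) : ℂ) • wmat M Z))).re

/-- The time derivative of `cavg`. -/
noncomputable def cavgT (M : Matrix ι ι ℂ) (z : Fin n → ι → ℂ) (s : ℝ) : ℝ :=
  (∑ j, gapDT M (∑ k, gen M (diagonal (z k))) (diagonal (z j)) (sol s M (diagonal (z j)))
    (sol s M (-(((1 / 2 : ℝ) : ℂ) • diagonal (z j))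
      - ((s : ℂ) • ((∑ k, gen M (diagonal (z k))) * sol s M (diagonal (z j)))
        + ((1 - s : ℝ) : ℂ) • (sol s M (diagonal (z j)) * ∑ k, gen M (diagonal (z k))))))) / n

/-- The derivative of `cavg` in `s`. -/
noncomputable def cavgS (M : Matrix ι ι ℂ) (z : Fin n → ι → ℂ) (s : ℝ) : ℝ :=
  (∑ j, gap M (sol s M (sol s M (diagonal (z j)) * M - M * sol s M (diagonal (z j)))) (diagonal (z j))) / n

section Generic

variable {κ : Type*} [Fintype κ] [DecidableEq κ]

theorem hasDerivAt_mmul {A B : ℝ → Matrix κ κ ℂ} {A' B' : Matrix κ κ ℂ} {t : ℝ}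
    (hA : ∀ i j, HasDerivAt (fun r => A r i j) (A' i j) t)
    (hB : ∀ i j, HasDerivAt (fun r => B r i j) (B' i j) t) (i j : κ) :
    HasDerivAt (fun r => (A r * B r) i j) ((A' * B t + A t * B') i j) t := by
  simp only [Matrix.mul_apply, Matrix.add_apply, ← Finset.sum_add_distrib]
  exact HasDerivAt.fun_sum fun k _ => (hA i k).mul (hB k j)

theorem hasDerivAt_re_trace {A : ℝ → Matrix κ κ ℂ} {A' : Matrix κ κ ℂ} {t : ℝ}
    (hA : ∀ i j, HasDerivAt (fun r => A r i j) (A' i j) t) :
    HasDerivAt (fun r => (trace (A r)).re) (trace A').re t := by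
  simp only [trace, diag_apply]
  exact Complex.reCLM.hasFDerivAt.comp_hasDerivAt t (HasDerivAt.fun_sum fun i _ => hA i i)

theorem hasDerivAt_cgap {M Y Z : ℝ → Matrix κ κ ℂ} {M' Y' Z' : Matrix κ κ ℂ} {t : ℝ}
    (hM : ∀ i j, HasDerivAt (fun r => M r i j) (M' i j) t)
    (hY : ∀ i j, HasDerivAt (fun r => Y r i j) (Y' i j) t)
    (hZ : ∀ i j, HasDerivAt (fun r => Z r i j) (Z' i j) t) :
    HasDerivAt (fun r => gap (M r) (Y r) (Z r))
      (gap (M t) Y' (Z t) + (trace ((Y t)ᴴ * (M' * M t * Z t + M t * M' * Z t - M' * Z t * M t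
        - M t * Z t * M' + wmat (M t) Z'))).re) t := by
  have hH : ∀ i j, HasDerivAt (fun r => (Y r)ᴴ i j) (Y'ᴴ i j) t := fun i j => (hY j i).star
  have hW : ∀ i j, HasDerivAt (fun r => wmat (M r) (Z r) i j)
      ((M' * M t * Z t + M t * M' * Z t - M' * Z t * M t - M t * Z t * M' + wmat (M t) Z') i j) t := by
    intro i j
    refine ((hasDerivAt_mmul (hasDerivAt_mmul hM hM) hZ i j).sub
      (hasDerivAt_mmul (hasDerivAt_mmul hM hZ) hM i j)).congr_deriv ?_
    simp [wmat, add_mul, Matrix.sub_apply, Matrix.add_apply]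
    ring
  refine (hasDerivAt_re_trace (hasDerivAt_mmul hH hW)).congr_deriv ?_
  rw [trace_add, Complex.add_re, gap]

theorem continuousOn_wmat {X : Type*} [TopologicalSpace X] {S : Set X} {M Z : X → Matrix κ κ ℂ}
    (hM : ContinuousOn M S) (hZ : ContinuousOn Z S) : ContinuousOn (fun q => wmat (M q) (Z q)) S := by
  have hm := fun {A B : X → Matrix κ κ ℂ} (hA : ContinuousOn A S) (hB : ContinuousOn B S) =>
    (continuous_fst.matrix_mul continuous_snd).comp_continuousOn (hA.prodMk hB)
  exact (hm (hm hM hM) hZ).sub (hm (hm hM hZ) hM)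

theorem continuousOn_gapDT {X : Type*} [TopologicalSpace X] {S : Set X} {M G Z Y Yd : X → Matrix κ κ ℂ}
    (hM : ContinuousOn M S) (hG : ContinuousOn G S) (hZ : ContinuousOn Z S) (hY : ContinuousOn Y S)
    (hYd : ContinuousOn Yd S) :
    ContinuousOn (fun q => gap (M q) (Y q) (Z q)) S
      ∧ ContinuousOn (fun q => gapDT (M q) (G q) (Z q) (Y q) (Yd q)) S := by
  have hm := fun {A B : X → Matrix κ κ ℂ} (hA : ContinuousOn A S) (hB : ContinuousOn B S) =>
    (continuous_fst.matrix_mul continuous_snd).comp_continuousOn (hA.prodMk hB)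
  have htr := fun (A : X → Matrix κ κ ℂ) (hA : ContinuousOn A S) =>
    (Complex.continuous_re.comp continuous_id.matrix_trace).comp_continuousOn hA
  have hH := fun {A : X → Matrix κ κ ℂ} (hA : ContinuousOn A S) =>
    continuous_id.matrix_conjTranspose.comp_continuousOn hA
  have hgap : ∀ {A : X → Matrix κ κ ℂ}, ContinuousOn A S → ContinuousOn (fun q => gap (M q) (A q) (Z q)) S :=
    fun {A} hA => htr _ (hm (hH hA) (continuousOn_wmat hM hZ))
  exact ⟨hgap hY, (hgap hYd).add (htr _ (hm (hH hY) (((((hm (hm hG hM) hZ).add (hm (hm hM hG) hZ)).sub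
    (hm (hm hG hZ) hM)).sub (hm (hm hM hZ) hG)).sub ((continuousOn_wmat hM hZ).const_smul (((1 / 2 : ℝ) : ℂ))))))⟩

theorem continuousOn_solTerms {X : Type*} [TopologicalSpace X] {S : Set X} {M G Z : X → Matrix κ κ ℂ}
    {s : X → ℝ} (hM : ContinuousOn M S) (hG : ContinuousOn G S) (hZ : ContinuousOn Z S) (hs : ContinuousOn s S)
    (hd : ∀ q ∈ S, IsUnit (sylvMat (s q) (M q)).det) :
    ContinuousOn (fun q => gap (M q) (sol (s q) (M q) (Z q)) (Z q)) S
      ∧ ContinuousOn (fun q => gapDT (M q) (G q) (Z q) (sol (s q) (M q) (Z q))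
          (sol (s q) (M q) (-(((1 / 2 : ℝ) : ℂ) • Z q)
            - ((s q : ℂ) • (G q * sol (s q) (M q) (Z q))
              + ((1 - s q : ℝ) : ℂ) • (sol (s q) (M q) (Z q) * G q))))) S := by
  have hm := fun {A B : X → Matrix κ κ ℂ} (hA : ContinuousOn A S) (hB : ContinuousOn B S) =>
    (continuous_fst.matrix_mul continuous_snd).comp_continuousOn (hA.prodMk hB)
  have hL : ∀ W : X → Matrix κ κ ℂ, ContinuousOn W S → ContinuousOn (fun q => sol (s q) (M q) (W q)) S :=
    fun W hW q hq => continuousWithinAt_sol (hs q hq) (hM q hq) (hW q hq) (hd q hq)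
  have hY := hL Z hZ
  have h1 : ContinuousOn (fun q => (s q : ℂ)) S := Complex.continuous_ofReal.comp_continuousOn hs
  have h2 : ContinuousOn (fun q => ((1 - s q : ℝ) : ℂ)) S :=
    Complex.continuous_ofReal.comp_continuousOn (continuousOn_const.sub hs)
  have hA : ContinuousOn (fun q => -(((1 / 2 : ℝ) : ℂ) • Z q)) S := (hZ.const_smul (((1 / 2 : ℝ) : ℂ))).neg
  have hB : ContinuousOn (fun q => (s q : ℂ) • (G q * sol (s q) (M q) (Z q))) S := h1.smul (hm hG hY)
  have hC : ContinuousOn (fun q => ((1 - s q : ℝ) : ℂ) • (sol (s q) (M q) (Z q) * G q)) S := h2.smul (hm hY hG)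
  exact continuousOn_gapDT hM hG hZ hY (hL _ (hA.sub (hB.add hC)))

end Generic

theorem continuousOn_cavg {C : ℝ → Matrix ι ι ℂ} {A : ℝ → Fin n → ι → ℂ} (hC : Continuous C)
    (hA : ∀ j, Continuous fun r => diagonal (A r j)) (hpd : ∀ t, (C t).PosDef) (S : Set ℝ) :
    ContinuousOn (Function.uncurry fun t s => cavg (C t) (A t) s) (S ×ˢ Icc 0 1)
      ∧ ContinuousOn (Function.uncurry fun t s => cavgT (C t) (A t) s) (S ×ˢ Icc 0 1) := by
  have hG : Continuous fun r => ∑ k, gen (C r) (diagonal (A r k)) :=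
    continuous_finsetSum _ fun k _ => by
      have := hA k
      simp only [gen]
      fun_prop
  have h := fun j => continuousOn_solTerms (S := S ×ˢ Icc (0 : ℝ) 1)
    (hC.comp continuous_fst).continuousOn (hG.comp continuous_fst).continuousOn
    ((hA j).comp continuous_fst).continuousOn continuous_snd.continuousOn
    fun q hq => isUnit_det_sylvMat (hpd q.1) hq.2.1 hq.2.2
  exact ⟨(continuousOn_finsetSum _ fun j _ => (h j).1).div_const _,
    (continuousOn_finsetSum _ fun j _ => (h j).2).div_const _⟩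

/-- The entropy bound along the attenuator for a finite coherent mixture. -/
theorem gram_flow_bound (hn : 0 < n) {w : ι → ℝ} (hw : ∀ l, 0 < w l) (hsum : ∑ l, w l = 1)
    (z : Fin n → ι → ℂ) (hz : Function.Injective fun l k => z k l) {N : ℝ} (hN : 0 < N)
    (hS : n * g N ≤ nent (gram w z 0)) {T : ℝ} (hT : 0 ≤ T) :
    n * g (N * Real.exp (-T)) ≤ nent (gram w z T) := by
  have hn' : (0 : ℝ) < n := Nat.cast_pos.2 hn
  have hpd := gram_posDef hw z hz
  have htr := trace_gram (fun l => (hw l).le) hsum z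
  have hMc : Continuous (gram w z) :=
    continuous_pi fun l => continuous_pi fun m =>
      continuous_iff_continuousAt.2 fun t => (hasDerivAt_gram w z t l m).continuousAt
  have hZd : ∀ t j a b, HasDerivAt (fun r => diagonal (amp z r j) a b)
      ((-(((1 / 2 : ℝ) : ℂ) • diagonal (amp z t j))) a b) t := by
    intro t j a b
    rcases eq_or_ne a b with rfl | hab
    · simp only [diagonal_apply_eq, Matrix.neg_apply, Matrix.smul_apply, smul_eq_mul]
      exact (hasDerivAt_amp z t j a).congr_deriv (by ring)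
    · simp only [diagonal_apply_ne _ hab, Matrix.neg_apply, Matrix.smul_apply, smul_zero, neg_zero]
      exact hasDerivAt_const t _
  have hA : ∀ j, Continuous fun r => diagonal (amp z r j) := fun j =>
    continuous_pi fun a => continuous_pi fun b => continuous_iff_continuousAt.2 fun t => (hZd t j a b).continuousAt
  have hdt : ∀ t, ∀ s ∈ Icc (0 : ℝ) 1,
      HasDerivAt (fun r => cavg (gram w z r) (amp z r) s) (cavgT (gram w z t) (amp z t) s) t := by
    intro t s hs
    refine ((HasDerivAt.fun_sum fun j _ => hasDerivAt_cgap (hasDerivAt_gram w z t) (fun a b =>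
      hasDerivAt_sol (s := fun _ => s) (hasDerivAt_const t s) (Eventually.of_forall fun _ => hs) hpd
        (hasDerivAt_gram w z t) (hZd t j) a b) (hZd t j)).div_const _).congr_deriv ?_
    simp only [cavgT, gapDT]
    refine congrArg (· / (n : ℝ)) (Finset.sum_congr rfl fun j _ => ?_)
    have hwm : wmat (gram w z t) (-(((1 / 2 : ℝ) : ℂ) • diagonal (amp z t j)))
        = -(((1 / 2 : ℝ) : ℂ) • wmat (gram w z t) (diagonal (amp z t j))) := by
      simp only [wmat, mul_neg, neg_mul, mul_smul_comm, smul_mul_assoc, smul_sub]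
      abel
    rw [hwm]
    simp [sylv, sub_eq_add_neg]
  have hds : ∀ t, ∀ s ∈ Ioo (0 : ℝ) 1,
      HasDerivAt (cavg (gram w z t) (amp z t)) (cavgS (gram w z t) (amp z t) s) s := by
    intro t s hs
    have hc : ∀ (A : Matrix ι ι ℂ) a b, HasDerivAt (fun _ : ℝ => A a b) ((0 : Matrix ι ι ℂ) a b) s :=
      fun A a b => hasDerivAt_const s _
    refine ((HasDerivAt.fun_sum fun j _ => hasDerivAt_cgap (hc (gram w z t)) (fun a b =>
      hasDerivAt_sol (s := fun r => r) (hasDerivAt_id' s)
        (Filter.mem_of_superset (Icc_mem_nhds hs.1 hs.2) fun _ h => h) (fun _ => hpd t) (hc (gram w z t))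
        (hc (diagonal (amp z t j))) a b) (hc _)).div_const _).congr_deriv ?_
    simp [cavgS, sylv, wmat]
  have hineq : ∀ t, ∀ s ∈ Ioo (0 : ℝ) 1,
      cavg (gram w z t) (amp z t) s ^ 2 - cavg (gram w z t) (amp z t) s ≤ cavgT (gram w z t) (amp z t) s
        ∧ s * cavgS (gram w z t) (amp z t) s ≤ cavgT (gram w z t) (amp z t) s := by
    intro t s hs
    have hsl := fun Z => sylv_sol (hpd t) hs.1.le hs.2.le Z
    obtain ⟨h1, h2⟩ := flow_ineq (hpd t) (htr t) (gram_coherent w z t) hs.1 hs.2.le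
      (Y := fun j => sol s (gram w z t) (diagonal (amp z t j))) (fun j => hsl _) (fun j => hsl _)
      (fun j => hsl _)
    simp only [cavg, cavgT, cavgS, gapDT]
    rw [Finset.sum_add_distrib] at h1
    constructor
    · rw [div_pow, sub_le_iff_le_add, ← add_div, div_le_div_iff₀ (by positivity) hn']
      nlinarith [mul_le_mul_of_nonneg_right h1 hn'.le]
    · rw [mul_div_assoc']
      exact div_le_div_of_nonneg_right h2 hn'.le
  have hcont := continuousOn_cavg (A := amp z) hMc hA hpd (Ioi (-1))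
  exact curve_entropy_bound zero_lt_one hpd htr hMc
    (M' := fun t => ∑ k, gen (gram w z t) (diagonal (amp z t k))) (fun t _ => hasDerivAt_gram w z t)
    (f := fun t s => cavg (gram w z t) (amp z t) s) (ft := fun t s => cavgT (gram w z t) (amp z t) s)
    (fs := fun t s => cavgS (gram w z t) (amp z t) s)
    (fun t _ U p hU hU' hp hdec => by
      rw [rate_eq_integral (hpd t) hp hU' hU hdec (amp z t)]
      simp only [cavg, intervalIntegral.integral_div]
      rw [mul_div_cancel₀ _ hn'.ne'])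
    hcont.1 hcont.2 (fun t _ => hdt t) (fun t _ => hds t)
    (fun t _ s hs => (hineq t s hs).1) (fun t _ s hs => (hineq t s hs).2) hN hS hT

end Vale.Agent.P369.Classical
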