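import Mathlib
import Vale.Agent.P369.Classical.Flow
import Vale.Agent.P369.Fock.Main

/-!
# P369: EPnI with a vacuum second input, for finite mixtures of coherent states
-/

namespace Vale.Agent.P369.Classical

open Matrix Filter VAgent.P358
open scoped Topology ComplexConjugate ComplexOrder
open Vale.Agent.P369.Fock

variable {n : ℕ}

/-- The matrix element of a mixture of coherent states. -/
noncomputable def mixEntry {ι : Type*} [Fintype ι] (w : ι → ℝ) (z : Fin n → ι → ℂ) (a b : Idx n) : ℂ :=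
  ∑ l, (w l : ℂ) * (cv (fun k => z k l) a * conj (cv (fun k => z k l) b))

/-- The square-root factor of the compressions of a mixture. -/
noncomputable def mixFactor {ι : Type*} (w : ι → ℝ) (z : Fin n → ι → ℂ) (F : Finset (Idx n)) : Matrix F ι ℂ :=
  fun a l => (Real.sqrt (w l) : ℂ) * cv (fun k => z k l) a.1

/-- The entropy of a finite mixture is the entropy of its Gram matrix. -/
theorem entropy_mixture {ι : Type*} [Fintype ι] [DecidableEq ι] {w : ι → ℝ} (hw : ∀ l, 0 ≤ w l)
    (z : Fin n → ι → ℂ) (t : ℝ) {ρ : Op n} (hρ : IsState ρ) (hE : FinitePhotons ρ)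
    (hmix : ∀ a b, entry ρ a b = mixEntry w (amp z t) a b) :
    entropy ρ = ENNReal.ofReal (nent (gram w z t)) := by
  obtain ⟨S, hS0, hS, hlim⟩ := tendsto_comp hρ hE
  obtain ⟨W, eW⟩ : ∃ W : (F : Finset (Idx n)) → Matrix F ι ℂ,
      W = mixFactor w (amp z t) :=
    ⟨_, rfl⟩
  have hcomp : ∀ F, Fock.comp ρ F = W F * (W F)ᴴ := fun F => by
    ext a b
    rw [Fock.comp, hmix, mixEntry, Matrix.mul_apply]
    refine Finset.sum_congr rfl fun l _ => ?_
    rw [Matrix.conjTranspose_apply, eW, RCLike.star_def]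
    simp only [mixFactor, map_mul, Complex.conj_ofReal]
    have : ((Real.sqrt (w l) : ℝ) : ℂ) * (Real.sqrt (w l) : ℂ) = (w l : ℂ) := by
      rw [← Complex.ofReal_mul, Real.mul_self_sqrt (hw l)]
    linear_combination (-(cv (fun k => amp z t k l) a * conj (cv (fun k => amp z t k l) b))) * this
  have hnent : ∀ F, nent (Fock.comp ρ F) = nent ((W F)ᴴ * W F) := fun F => by rw [hcomp, Fock.nent_mul_comm]
  have hconv : Tendsto (fun F => (W F)ᴴ * W F) atTop (𝓝 (gram w z t)) := by
    refine tendsto_pi_nhds.2 fun l => tendsto_pi_nhds.2 fun m => ?_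
    have h : Tendsto (fun F : Finset (Idx n) => ∑ a ∈ F, conj ((Real.sqrt (w l) : ℂ) * cv (fun k => amp z t k l) a)
        * ((Real.sqrt (w m) : ℂ) * cv (fun k => amp z t k m) a)) atTop (𝓝 (gram w z t l m)) :=
      hasSum_gram w z t l m
    refine h.congr fun F => ?_
    rw [Matrix.mul_apply, ← Finset.sum_coe_sort F]
    simp [eW, mixFactor]
  have hpsd : (gram w z t).PosSemidef := by
    refine Matrix.PosSemidef.of_dotProduct_mulVec_nonneg (gram_hermitian w z t) fun c => ?_
    have hc : Continuous fun A : Matrix ι ι ℂ => star c ⬝ᵥ (A *ᵥ c) := by fun_prop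
    exact ge_of_tendsto ((hc.tendsto _).comp hconv) (Eventually.of_forall fun F =>
      (Matrix.posSemidef_conjTranspose_mul_self (W F)).dotProduct_mulVec_nonneg c)
  have hcont := continuous_nent (fun x : {M : Matrix ι ι ℂ // M.PosSemidef} => x.1)
    continuous_subtype_val fun x => x.2
  obtain ⟨B, eB⟩ : ∃ B : Finset (Idx n) → {M : Matrix ι ι ℂ // M.PosSemidef},
      ∀ F, (B F).1 = (W F)ᴴ * W F :=
    ⟨fun F => ⟨_, Matrix.posSemidef_conjTranspose_mul_self (W F)⟩, fun F => rfl⟩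
  have hB : Tendsto B atTop (𝓝 ⟨gram w z t, hpsd⟩) :=
    tendsto_subtype_rng.2 (hconv.congr fun F => (eB F).symm)
  have hlim' := ((hcont.tendsto _).comp hB).congr fun F =>
    (congrArg nent (eB F)).trans (hnent F).symm
  rw [hS, tendsto_nhds_unique hlim hlim']

theorem coef_mul_cv {η : ℝ} (h0 : 0 ≤ η) (h1 : η ≤ 1) (v : Fin n → ℂ) (c d : Idx n) :
    (coef η c d : ℂ) * cv v (c + d)
      = cv (fun k => (Real.sqrt η : ℂ) * v k) c * cv (fun k => (Real.sqrt (1 - η) : ℂ) * v k) d := by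
  have h1' : 0 ≤ 1 - η := sub_nonneg.2 h1
  rw [coef, cv, cv, cv, Complex.ofReal_prod, ← Finset.prod_mul_distrib, ← Finset.prod_mul_distrib]
  refine Finset.prod_congr rfl fun k _ => ?_
  have hs : ∀ {x : ℝ}, 0 ≤ x → ∀ m : ℕ, Real.sqrt (x ^ m) = Real.sqrt x ^ m := fun {x} hx m => by
    rw [Real.sqrt_eq_iff_eq_sq (by positivity) (by positivity), ← pow_mul, mul_comm, pow_mul, Real.sq_sqrt hx]
  have hn : ∀ x : ℝ, 0 ≤ x → Complex.normSq ((Real.sqrt x : ℂ) * v k) = x * Complex.normSq (v k) := fun x hx => by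
    rw [Complex.normSq_mul, Complex.normSq_ofReal, Real.mul_self_sqrt hx]
  have he : Real.exp (-(η * Complex.normSq (v k)) / 2) * Real.exp (-((1 - η) * Complex.normSq (v k)) / 2)
      = Real.exp (-Complex.normSq (v k) / 2) := by
    rw [← Real.exp_add]; congr 1; ring
  have hf : Real.sqrt (((c k + d k).choose (d k) : ℝ)) * (Real.sqrt (c k).factorial * Real.sqrt (d k).factorial)
      = Real.sqrt ((c k + d k).factorial) := by
    rw [← Real.sqrt_mul (Nat.cast_nonneg _), ← Real.sqrt_mul (Nat.cast_nonneg _)]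
    congr 1
    rw [← Nat.cast_mul, ← Nat.cast_mul, Nat.cast_inj, ← mul_assoc,
      Nat.add_choose_mul_factorial_mul_factorial]
  rw [hn η h0, hn _ h1', Real.sqrt_mul (by positivity), Real.sqrt_mul (by positivity), hs h0, hs h1',
    Pi.add_apply, ← he, ← hf, pow_add, mul_pow, mul_pow]
  have hC : Real.sqrt (((c k + d k).choose (d k) : ℝ)) ≠ 0 :=
    (Real.sqrt_pos.2 (Nat.cast_pos.2 (Nat.choose_pos (Nat.le_add_left _ _)))).ne'
  have hcf : Real.sqrt ((c k).factorial : ℝ) ≠ 0 := (Real.sqrt_pos.2 (Nat.cast_pos.2 (Nat.factorial_pos _))).ne'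
  have hdf : Real.sqrt ((d k).factorial : ℝ) ≠ 0 := (Real.sqrt_pos.2 (Nat.cast_pos.2 (Nat.factorial_pos _))).ne'
  push_cast
  field_simp [Complex.ofReal_ne_zero.2 hC, Complex.ofReal_ne_zero.2 hcf, Complex.ofReal_ne_zero.2 hdf]

/-- The output of a finite mixture is the attenuated mixture. -/
theorem mixture_output {ι : Type*} [Fintype ι] {η : ℝ} (h0 : 0 ≤ η) (h1 : η ≤ 1) {w : ι → ℝ}
    (z : Fin n → ι → ℂ) {ρ ρC : Op n} (hC : IsOutput η ρ (vacuum n) ρC)
    (hmix : ∀ a b, entry ρ a b = mixEntry w z a b) (c c' : Idx n) :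
    entry ρC c c' = mixEntry w (fun k l => (Real.sqrt η : ℂ) * z k l) c c' := by
  refine (hC.2 c c').unique ?_
  have h : ∀ l, HasSum (fun d : Idx n => (w l : ℂ) * (cv (fun k => (Real.sqrt η : ℂ) * z k l) c
      * conj (cv (fun k => (Real.sqrt η : ℂ) * z k l) c'))
      * (conj (cv (fun k => (Real.sqrt (1 - η) : ℂ) * z k l) d) * cv (fun k => (Real.sqrt (1 - η) : ℂ) * z k l) d))
      ((w l : ℂ) * (cv (fun k => (Real.sqrt η : ℂ) * z k l) c
        * conj (cv (fun k => (Real.sqrt η : ℂ) * z k l) c'))) := fun l => by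
    have := (hasSum_cv (fun k l => (Real.sqrt (1 - η) : ℂ) * z k l) l l).mul_left
      ((w l : ℂ) * (cv (fun k => (Real.sqrt η : ℂ) * z k l) c
        * conj (cv (fun k => (Real.sqrt η : ℂ) * z k l) c')))
    rwa [ov_self, Complex.exp_zero, mul_one] at this
  refine (hasSum_sum fun l _ => h l).congr_fun fun d => ?_
  rw [outTerm_vacuum h0 h1, hmix, mixEntry, Finset.mul_sum]
  refine Finset.sum_congr rfl fun l _ => ?_
  have e1 := coef_mul_cv h0 h1 (fun k => z k l) c d
  have e2 := congrArg conj (coef_mul_cv h0 h1 (fun k => z k l) c' d)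
  simp only [map_mul, Complex.conj_ofReal] at e2
  push_cast
  linear_combination ((w l : ℂ) * ((coef η c' d : ℂ) * conj (cv (fun k => z k l) (c' + d)))) * e1
    + ((w l : ℂ) * cv (fun k => (Real.sqrt η : ℂ) * z k l) c * cv (fun k => (Real.sqrt (1 - η) : ℂ) * z k l) d) * e2

/-- EPnI with a vacuum second input for finite mixtures of coherent states, distinct points. -/
theorem epni_mixture_inj (hn : 0 < n) {ι : Type*} [Fintype ι] [DecidableEq ι] {η : ℝ} (h0 : 0 ≤ η) (h1 : η ≤ 1)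
    {w : ι → ℝ} (hw : ∀ l, 0 < w l) (hsum : ∑ l, w l = 1) (z : Fin n → ι → ℂ)
    (hz : Function.Injective fun l k => z k l) {ρ ρC : Op n} (hρ : IsState ρ) (hE : FinitePhotons ρ)
    (hmix : ∀ a b, entry ρ a b = mixEntry w z a b) (hC : IsOutput η ρ (vacuum n) ρC) {N : ℝ} (hN : 0 ≤ N)
    (hS : ENNReal.ofReal (n * g N) ≤ entropy ρ) : ENNReal.ofReal (n * g (η * N)) ≤ entropy ρC := by
  rcases (mul_nonneg h0 hN).eq_or_lt with hz0 | hz0
  · simp [← hz0, g_zero]
  have hη : 0 < η := pos_of_mul_pos_left hz0 hN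
  have hNp : 0 < N := pos_of_mul_pos_right hz0 h0
  have e0 : amp z 0 = z := by funext k l; simp [amp]
  have eT : amp z (-Real.log η) = fun k l => (Real.sqrt η : ℂ) * z k l := by
    funext k l
    simp only [amp, neg_neg]
    rw [Real.exp_half, Real.exp_log hη]
  have hA := entropy_mixture (fun l => (hw l).le) z 0 hρ hE (by rw [e0]; exact hmix)
  have hB := entropy_mixture (fun l => (hw l).le) z (-Real.log η) hC.1
    (finitePhotons_output h0 h1 hρ hE hC) (by rw [eT]; exact mixture_output h0 h1 z hC hmix)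
  rw [hA, ENNReal.ofReal_le_ofReal_iff
    (nent_nonneg (gram_posDef hw z hz 0).posSemidef (trace_gram (fun l => (hw l).le) hsum z 0))] at hS
  rw [hB]
  refine ENNReal.ofReal_le_ofReal ?_
  have h := gram_flow_bound hn hw hsum z hz hNp hS (T := -Real.log η) (neg_nonneg.2 (Real.log_nonpos h0 h1))
  rwa [neg_neg, Real.exp_log hη, mul_comm N η] at h

/-- EPnI with a vacuum second input for finite mixtures of coherent states. -/
theorem epni_mixture {η : ℝ} (h0 : 0 ≤ η) (h1 : η ≤ 1) {ι : Type*} [Fintype ι] {w : ι → ℝ}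
    (hw : ∀ l, 0 ≤ w l) (hsum : ∑ l, w l = 1) (z : Fin n → ι → ℂ) {ρ ρC : Op n} (hρ : IsState ρ)
    (hE : FinitePhotons ρ) (hmix : ∀ a b, entry ρ a b = mixEntry w z a b)
    (hC : IsOutput η ρ (vacuum n) ρC) {N : ℝ} (hN : 0 ≤ N)
    (hS : ENNReal.ofReal (n * g N) ≤ entropy ρ) : ENNReal.ofReal (n * g (η * N)) ≤ entropy ρC := by
  classical
  rcases Nat.eq_zero_or_pos n with hn | hn
  · subst hn; simp
  obtain ⟨P, eP⟩ : ∃ P : Finset (Fin n → ℂ),
      P = (Finset.univ.filter fun l => 0 < w l).image fun l k => z k l := ⟨_, rfl⟩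
  obtain ⟨w', ew'⟩ : ∃ w' : P → ℝ, w' = fun p =>
      ∑ l ∈ (Finset.univ.filter fun l => 0 < w l).filter (fun l => (fun k => z k l) = p.1), w l := ⟨_, rfl⟩
  have hfib : ∀ f : (Fin n → ℂ) → ℂ, ∑ p : P, (w' p : ℂ) * f p.1 = ∑ l, (w l : ℂ) * f fun k => z k l := by
    intro f
    rw [← Finset.sum_filter_of_ne (s := Finset.univ) (p := fun l => 0 < w l) fun l _ h =>
      (hw l).lt_of_ne fun h' => h (by simp [← h'])]
    rw [← Finset.sum_fiberwise_of_maps_to (t := P) (g := fun l k => z k l)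
      (fun l hl => eP ▸ Finset.mem_image_of_mem _ hl), ← Finset.sum_coe_sort P]
    refine Finset.sum_congr rfl fun p _ => ?_
    rw [ew', Complex.ofReal_sum, Finset.sum_mul]
    exact Finset.sum_congr rfl fun l hl => by rw [← (Finset.mem_filter.1 hl).2]
  refine epni_mixture_inj hn h0 h1 (w := w') (fun p => ?_) ?_ (fun k p => p.1 k)
    (fun p q h => Subtype.ext h) hρ hE (fun a b => ?_) hC hN hS
  · have hp := p.2
    simp only [eP] at hp
    obtain ⟨l, hl, hlp⟩ := Finset.mem_image.1 hp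
    rw [ew']
    exact lt_of_lt_of_le (Finset.mem_filter.1 hl).2
      (Finset.single_le_sum (fun m _ => hw m) (Finset.mem_filter.2 ⟨hl, hlp⟩))
  · have h := hfib fun _ => 1
    simp only [mul_one, ← Complex.ofReal_sum, hsum] at h
    exact_mod_cast h
  · rw [hmix]
    exact (hfib fun v => cv v a * conj (cv v b)).symm

end Vale.Agent.P369.Classical
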