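import Mathlib
import Vale.Agent.P369.Classical.Mixture
import Vale.Agent.P369.Classical.Cv

/-!
# P369: corners of mixtures of coherent states
-/

namespace Vale.Agent.P369.Classical

open Matrix Filter VAgent.P358
open scoped Topology ComplexConjugate ComplexOrder
open Vale.Agent.P369.Fock

variable {n : ℕ} {ι : Type*} [Fintype ι]

/-- A finite corner of a mixture of coherent states. -/
noncomputable def mixMat (w : ι → ℝ) (z : Fin n → ι → ℂ) (F : Finset (Idx n)) : Matrix F F ℂ :=
  Matrix.of fun a b : F => mixEntry w z (a : Idx n) (b : Idx n)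

theorem mixMat_eq {w : ι → ℝ} (hw : ∀ l, 0 ≤ w l) (z : Fin n → ι → ℂ) (F : Finset (Idx n)) :
    mixMat w z F = mixFactor w z F * (mixFactor w z F)ᴴ := by
  ext a b
  rw [mixMat, Matrix.of_apply, mixEntry, Matrix.mul_apply]
  refine Finset.sum_congr rfl fun l _ => ?_
  rw [Matrix.conjTranspose_apply, RCLike.star_def]
  simp only [mixFactor, map_mul, Complex.conj_ofReal]
  have : ((Real.sqrt (w l) : ℝ) : ℂ) * (Real.sqrt (w l) : ℂ) = (w l : ℂ) := by
    rw [← Complex.ofReal_mul, Real.mul_self_sqrt (hw l)]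
  linear_combination (-(cv (fun k => z k l) a * conj (cv (fun k => z k l) b))) * this

theorem mixMat_posSemidef {w : ι → ℝ} (hw : ∀ l, 0 ≤ w l) (z : Fin n → ι → ℂ) (F : Finset (Idx n)) :
    (mixMat w z F).PosSemidef := by
  rw [mixMat_eq hw]
  exact Matrix.posSemidef_self_mul_conjTranspose _

theorem mixEntry_diag (w : ι → ℝ) (z : Fin n → ι → ℂ) (a : Idx n) :
    mixEntry w z a a = ((∑ l, w l * Complex.normSq (cv (fun k => z k l) a) : ℝ) : ℂ) := by
  rw [mixEntry, Complex.ofReal_sum]
  refine Finset.sum_congr rfl fun l _ => ?_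
  rw [Complex.ofReal_mul, Complex.mul_conj]

theorem mixEntry_diag_re (w : ι → ℝ) (z : Fin n → ι → ℂ) (a : Idx n) :
    (mixEntry w z a a).re = ∑ l, w l * Complex.normSq (cv (fun k => z k l) a) := by
  rw [mixEntry_diag, Complex.ofReal_re]

theorem trace_mixMat_le {w : ι → ℝ} (hw : ∀ l, 0 ≤ w l) (hsum : ∑ l, w l = 1) (z : Fin n → ι → ℂ)
    (F : Finset (Idx n)) : ∑ a ∈ F, (mixEntry w z a a).re ≤ 1 := by
  simp only [mixEntry_diag_re]
  rw [Finset.sum_comm]
  calc ∑ l, ∑ a ∈ F, w l * Complex.normSq (cv (fun k => z k l) a) ≤ ∑ l, w l := by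
        refine Finset.sum_le_sum fun l _ => ?_
        rw [← Finset.mul_sum]
        exact mul_le_of_le_one_right (hw l)
          (sum_le_hasSum F (fun a _ => Complex.normSq_nonneg _) (hasSum_normSq_cv _))
    _ = 1 := hsum

/-- The corner entropies of a finite mixture tend to the entropy of the Gram matrix. -/
theorem tendsto_nent_mixMat [DecidableEq ι] {w : ι → ℝ} (hw : ∀ l, 0 ≤ w l) (z : Fin n → ι → ℂ) (t : ℝ) :
    Tendsto (fun F => nent (mixMat w (Classical.amp z t) F)) atTop (𝓝 (nent (gram w z t))) := by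
  obtain ⟨W, eW⟩ : ∃ W : (F : Finset (Idx n)) → Matrix F ι ℂ, W = mixFactor w (Classical.amp z t) :=
    ⟨_, rfl⟩
  have hnent : ∀ F, nent (mixMat w (Classical.amp z t) F) = nent ((W F)ᴴ * W F) := fun F => by
    rw [mixMat_eq hw, eW, Fock.nent_mul_comm]
  have hconv : Tendsto (fun F => (W F)ᴴ * W F) atTop (𝓝 (gram w z t)) := by
    refine tendsto_pi_nhds.2 fun l => tendsto_pi_nhds.2 fun m => ?_
    have h : Tendsto (fun F : Finset (Idx n) => ∑ a ∈ F,
        conj ((Real.sqrt (w l) : ℂ) * cv (fun k => Classical.amp z t k l) a)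
          * ((Real.sqrt (w m) : ℂ) * cv (fun k => Classical.amp z t k m) a)) atTop (𝓝 (gram w z t l m)) :=
      hasSum_gram w z t l m
    refine h.congr fun F => ?_
    rw [Matrix.mul_apply, ← Finset.sum_coe_sort F]
    simp [eW, mixFactor]
  have hpsd : (gram w z t).PosSemidef := by
    refine Matrix.PosSemidef.of_dotProduct_mulVec_nonneg (gram_hermitian w z t) fun c => ?_
    have hc : Continuous fun A : Matrix ι ι ℂ => star c ⬝ᵥ (A *ᵥ c) := by fun_prop
    exact ge_of_tendsto ((hc.tendsto _).comp hconv) (Eventually.of_forall fun F =>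
      (Matrix.posSemidef_conjTranspose_mul_self (W F)).dotProduct_mulVec_nonneg c)
  have hcont := continuous_nent (fun x : {M : Matrix ι ι ℂ // M.PosSemidef} => x.1)
    continuous_subtype_val fun x => x.2
  obtain ⟨B, eB⟩ : ∃ B : Finset (Idx n) → {M : Matrix ι ι ℂ // M.PosSemidef},
      ∀ F, (B F).1 = (W F)ᴴ * W F :=
    ⟨fun F => ⟨_, Matrix.posSemidef_conjTranspose_mul_self (W F)⟩, fun F => rfl⟩
  have hB : Tendsto B atTop (𝓝 ⟨gram w z t, hpsd⟩) :=
    tendsto_subtype_rng.2 (hconv.congr fun F => (eB F).symm)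
  exact ((hcont.tendsto _).comp hB).congr fun F => (congrArg nent (eB F)).trans (hnent F).symm

/-- A corner has at most the entropy of a larger one plus the missing mass. -/
theorem nent_mixMat_le {w : ι → ℝ} (hw : ∀ l, 0 ≤ w l) (hsum : ∑ l, w l = 1) (z : Fin n → ι → ℂ)
    {F B : Finset (Idx n)} (hFB : F ⊆ B) :
    nent (mixMat w z F) ≤ nent (mixMat w z B) + (1 - ∑ a ∈ F, (mixEntry w z a a).re) := by
  classical
  have hM := mixMat_posSemidef hw z B
  obtain ⟨U, -, hU, hdec⟩ := Fock.eq_sum_eigen hM.1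
  obtain ⟨p, ep⟩ : ∃ p : B → ℝ, p = hM.1.eigenvalues := ⟨_, rfl⟩
  rw [← ep] at hdec
  obtain ⟨v, ev⟩ : ∃ v : B → F → ℂ, v = fun i a => U ⟨a.1, hFB a.2⟩ i := ⟨_, rfl⟩
  have e : mixMat w z F = fun a b => ∑ i, (p i : ℂ) * v i a * star (v i b) := by
    funext a b
    have h := hdec ⟨a.1, hFB a.2⟩ ⟨b.1, hFB b.2⟩
    simpa [ev, mixMat] using h
  obtain ⟨u, eu⟩ : ∃ u : B → ℝ, u = fun i => ∑ a, ‖v i a‖ ^ 2 := ⟨_, rfl⟩
  have hp0 : ∀ i, 0 ≤ p i := fun i => ep ▸ hM.eigenvalues_nonneg i
  have hp1 : ∑ i, p i ≤ 1 := by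
    have h := congrArg Complex.re hM.1.trace_eq_sum_eigenvalues
    rw [Complex.re_sum] at h
    simp only [RCLike.ofReal_eq_complex_ofReal, Complex.ofReal_re, ← ep] at h
    rw [← h]
    simp only [Matrix.trace, Matrix.diag_apply, mixMat, Matrix.of_apply, Complex.re_sum]
    rw [Finset.sum_coe_sort B fun a => (mixEntry w z a a).re]
    exact trace_mixMat_le hw hsum z B
  have hu0 : ∀ i, 0 ≤ u i := fun i => eu ▸ Finset.sum_nonneg fun a _ => sq_nonneg _
  have hu1 : ∀ i, u i ≤ 1 := fun i => by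
    have h := congrFun (congrFun hU i) i
    simp only [Matrix.mul_apply, Matrix.conjTranspose_apply, Matrix.one_apply_eq, RCLike.star_def,
      ← Complex.normSq_eq_conj_mul_self] at h
    rw [← Complex.ofReal_sum] at h
    have h' : ∑ a, Complex.normSq (U a i) = 1 := by exact_mod_cast h
    rw [eu, ← h']
    simp only [ev, ← Complex.normSq_eq_norm_sq]
    refine (Finset.sum_map Finset.univ ⟨fun a : F => (⟨a.1, hFB a.2⟩ : B), fun a b hab => ?_⟩
      fun a => Complex.normSq (U a i)).symm.trans_le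
      (Finset.sum_le_sum_of_subset_of_nonneg (Finset.subset_univ _) fun a _ _ => Complex.normSq_nonneg _)
    exact Subtype.ext (congrArg (fun x : B => x.1) hab)
  have hmass : ∑ i, p i * u i = ∑ a ∈ F, (mixEntry w z a a).re := by
    have h1 : ∀ a : F, (mixEntry w z a a).re = ∑ i, p i * ‖v i a‖ ^ 2 := fun a => by
      have h := congrArg Complex.re (congrFun (congrFun e a) a)
      simp only [mixMat, Matrix.of_apply] at h
      rw [h, Complex.re_sum]
      refine Finset.sum_congr rfl fun i _ => ?_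
      rw [mul_assoc, RCLike.star_def, Complex.mul_conj, ← Complex.ofReal_mul, Complex.ofReal_re,
        Complex.normSq_eq_norm_sq]
    rw [← Finset.sum_coe_sort F fun a => (mixEntry w z a a).re]
    simp only [h1, eu, Finset.mul_sum]
    exact Finset.sum_comm
  have hne : nent (mixMat w z B) = ∑ i, Real.negMulLog (p i) := by rw [ep, nent, dif_pos hM.1]
  have key := Fock.nent_le_sum_rankOne p hp0 v
  rw [← e] at key
  refine key.trans ?_
  rw [hne, ← hmass]
  have hi : ∀ i, Real.negMulLog (p i * ∑ a, ‖v i a‖ ^ 2) ≤ Real.negMulLog (p i) + (p i - p i * u i) := by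
    intro i
    have hpi : p i ≤ 1 := (Finset.single_le_sum (fun j _ => hp0 j) (Finset.mem_univ i)).trans hp1
    rw [show (∑ a, ‖v i a‖ ^ 2) = u i from (congrFun eu i).symm, Real.negMulLog_mul]
    have h1 : u i * Real.negMulLog (p i) ≤ Real.negMulLog (p i) :=
      mul_le_of_le_one_left (Real.negMulLog_nonneg (hp0 i) hpi) (hu1 i)
    have h2 : p i * Real.negMulLog (u i) ≤ p i * (1 - u i) := mul_le_mul_of_nonneg_left
      ((negMulLog_le_cross (hu0 i) (zero_le_one (α := ℝ)) (fun h => absurd h one_ne_zero)).trans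
        (by rw [Real.log_one]; linarith)) (hp0 i)
    rw [mul_sub, mul_one] at h2
    linarith
  refine (Finset.sum_le_sum fun i _ => hi i).trans ?_
  rw [Finset.sum_add_distrib, Finset.sum_sub_distrib]
  linarith

/-- A larger corner has at most the entropy of a corner plus a weighted tail. -/
theorem nent_mixMat_tail {w : ι → ℝ} (hw : ∀ l, 0 ≤ w l) (z : Fin n → ι → ℂ)
    {F B : Finset (Idx n)} (hFB : F ⊆ B) :
    nent (mixMat w z B) ≤ nent (mixMat w z F) + ∑ a ∈ B \ F,
      ((photons a : ℝ) * (mixEntry w z a a).re + Real.exp (-(photons a : ℝ))) := by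
  have h := nent_comp_split (c := fun a b => mixEntry w z a b) hFB (mixMat_posSemidef hw z B)
  refine h.trans (add_le_add le_rfl (Finset.sum_le_sum fun a _ => ?_))
  have h0 : 0 ≤ (mixEntry w z a a).re := mixEntry_diag_re w z a ▸
    Finset.sum_nonneg fun l _ => mul_nonneg (hw l) (Complex.normSq_nonneg _)
  refine (negMulLog_le_cross h0 (Real.exp_pos (-(photons a : ℝ) - 1)).le
    (fun h => absurd h (Real.exp_ne_zero _))).trans ?_
  rw [Real.log_exp]
  have h2 : Real.exp (-(photons a : ℝ) - 1) ≤ Real.exp (-(photons a : ℝ)) :=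
    Real.exp_le_exp.2 (by linarith)
  linarith

/-- The entropy of the Gram matrix dominates every corner, up to the missing mass. -/
theorem gram_ge_corner [DecidableEq ι] {w : ι → ℝ} (hw : ∀ l, 0 ≤ w l) (hsum : ∑ l, w l = 1)
    (z : Fin n → ι → ℂ) (t : ℝ) (F : Finset (Idx n)) :
    nent (mixMat w (Classical.amp z t) F)
      - (1 - ∑ a ∈ F, (mixEntry w (Classical.amp z t) a a).re) ≤ nent (gram w z t) := by
  refine ge_of_tendsto (tendsto_nent_mixMat hw z t) ?_
  filter_upwards [eventually_ge_atTop F] with B hB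
  linarith [nent_mixMat_le hw hsum (Classical.amp z t) hB]

/-- The entropy of the Gram matrix is at most a corner plus the weighted tail. -/
theorem gram_le_corner [DecidableEq ι] {w : ι → ℝ} (hw : ∀ l, 0 ≤ w l) (z : Fin n → ι → ℂ) (t : ℝ)
    (F : Finset (Idx n)) {R : ℝ} (hR : ∀ B : Finset (Idx n), F ⊆ B → ∑ a ∈ B \ F,
      ((photons a : ℝ) * (mixEntry w (Classical.amp z t) a a).re + Real.exp (-(photons a : ℝ))) ≤ R) :
    nent (gram w z t) ≤ nent (mixMat w (Classical.amp z t) F) + R := by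
  refine le_of_tendsto (tendsto_nent_mixMat hw z t) ?_
  filter_upwards [eventually_ge_atTop F] with B hB
  linarith [nent_mixMat_tail hw (Classical.amp z t) hB, hR B hB]

end Vale.Agent.P369.Classical
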