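import Mathlib
import Vale.Agent.P369.Classical.Corner

/-!
# P369: EPnI with a vacuum second input for states with a probability P-distribution
-/

namespace Vale.Agent.P369.Classical

open MeasureTheory Filter Matrix VAgent.P358
open scoped Topology ComplexConjugate ENNReal ComplexOrder
open Vale.Agent.P369.Fock

variable {n : ℕ} {μ : Measure (Fin n → ℂ)} [IsProbabilityMeasure μ]

theorem integrable_cv_pair {f : (Fin n → ℂ) → (Fin n → ℂ)} (hf : Measurable f) (a b : Idx n) :
    Integrable (fun v => cv (f v) a * conj (cv (f v) b)) μ :=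
  Integrable.of_bound (((continuous_cv a).measurable.comp hf).mul
    (Complex.continuous_conj.measurable.comp ((continuous_cv b).measurable.comp hf))).aestronglyMeasurable 1
    (Eventually.of_forall fun v => norm_cv_mul_le (f v) a b)

theorem integral_cv_diag (f : (Fin n → ℂ) → (Fin n → ℂ)) (a : Idx n) :
    (∫ v, cv (f v) a * conj (cv (f v) a) ∂μ) = ((∫ v, Complex.normSq (cv (f v) a) ∂μ : ℝ) : ℂ) := by
  refine Eq.trans ?_ integral_complex_ofReal
  exact integral_congr_ae (Eventually.of_forall fun v => Complex.mul_conj _)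

theorem hasSum_photons_integral {f : (Fin n → ℂ) → (Fin n → ℂ)} (hf : Measurable f)
    (hi : Integrable (fun v => sq2 (f v)) μ) :
    HasSum (fun a : Idx n => (photons a : ℝ) * ∫ v, Complex.normSq (cv (f v) a) ∂μ) (∫ v, sq2 (f v) ∂μ) := by
  simp only [← integral_const_mul]
  refine hasSum_integral_of_dominated_convergence
    (fun a v => (photons a : ℝ) * Complex.normSq (cv (f v) a))
    (fun a => (((Complex.continuous_normSq.comp (continuous_cv a)).measurable.comp hf).const_mul _).aestronglyMeasurable)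
    (fun a => Eventually.of_forall fun v => (Real.norm_of_nonneg
      (mul_nonneg (Nat.cast_nonneg _) (Complex.normSq_nonneg _))).le)
    (Eventually.of_forall fun v => (hasSum_photons_cv (f v)).summable) ?_
    (Eventually.of_forall fun v => hasSum_photons_cv (f v))
  exact hi.congr (Eventually.of_forall fun v => (hasSum_photons_cv (f v)).tsum_eq.symm)

theorem integrable_sq2 {ρ : Op n} (hρ : IsState ρ) (hE : FinitePhotons ρ)
    (hent : ∀ a b, entry ρ a b = ∫ v, cv v a * conj (cv v b) ∂μ) : Integrable (sq2 (n := n)) μ := by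
  have hd : ∀ a, (entry ρ a a).re = ∫ v, Complex.normSq (cv v a) ∂μ := fun a => by
    rw [hent, integral_cv_diag (fun v => v) a, Complex.ofReal_re]
  have hm : ∀ a : Idx n, Measurable fun v : Fin n → ℂ => (photons a : ℝ) * Complex.normSq (cv v a) := fun a =>
    ((Complex.continuous_normSq.comp (continuous_cv a)).measurable).const_mul _
  have hint : ∀ a, ∫⁻ v, ENNReal.ofReal ((photons a : ℝ) * Complex.normSq (cv v a)) ∂μ
      = ENNReal.ofReal ((photons a : ℝ) * (entry ρ a a).re) := fun a => by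
    rw [hd, ← integral_const_mul, ofReal_integral_eq_lintegral_ofReal]
    · refine Integrable.of_bound (hm a).aestronglyMeasurable (photons a : ℝ)
        (Eventually.of_forall fun v => ?_)
      rw [Real.norm_of_nonneg (mul_nonneg (Nat.cast_nonneg _) (Complex.normSq_nonneg _))]
      exact mul_le_of_le_one_right (Nat.cast_nonneg _)
        (le_hasSum (hasSum_normSq_cv v) a fun b _ => Complex.normSq_nonneg _)
    · exact Eventually.of_forall fun v => mul_nonneg (Nat.cast_nonneg _) (Complex.normSq_nonneg _)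
  have hfin : ∫⁻ v, ENNReal.ofReal (sq2 v) ∂μ ≠ ⊤ := by
    have e : ∀ v : Fin n → ℂ, ENNReal.ofReal (sq2 v)
        = ∑' a, ENNReal.ofReal ((photons a : ℝ) * Complex.normSq (cv v a)) := fun v => by
      rw [← ENNReal.ofReal_tsum_of_nonneg (fun a => mul_nonneg (Nat.cast_nonneg _) (Complex.normSq_nonneg _))
        (hasSum_photons_cv v).summable, (hasSum_photons_cv v).tsum_eq]
    simp only [e]
    rw [lintegral_tsum fun a => (hm a).ennreal_ofReal.aemeasurable]
    simp only [hint]
    rw [← ENNReal.ofReal_tsum_of_nonneg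
      (fun a => mul_nonneg (Nat.cast_nonneg _) (diag_nonneg hρ.1 a)) hE]
    exact ENNReal.ofReal_ne_top
  refine ⟨continuous_sq2.aestronglyMeasurable, ?_⟩
  rw [hasFiniteIntegral_iff_ofReal (Eventually.of_forall fun v => sq2_nonneg v)]
  exact hfin.lt_top

/-- The output entries. -/
theorem measure_output {η : ℝ} (h0 : 0 ≤ η) (h1 : η ≤ 1) {ρ ρC : Op n}
    (hent : ∀ a b, entry ρ a b = ∫ v, cv v a * conj (cv v b) ∂μ)
    (hC : IsOutput η ρ (vacuum n) ρC) (c c' : Idx n) :
    entry ρC c c' = ∫ v, cv ((Real.sqrt η : ℂ) • v) c * conj (cv ((Real.sqrt η : ℂ) • v) c') ∂μ := by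
  refine (hC.2 c c').unique ?_
  have e : ∀ d (v : Fin n → ℂ), ((coef η c d * coef η c' d : ℝ) : ℂ) * (cv v (c + d) * conj (cv v (c' + d)))
      = cv ((Real.sqrt η : ℂ) • v) c * conj (cv ((Real.sqrt η : ℂ) • v) c')
        * ((Complex.normSq (cv ((Real.sqrt (1 - η) : ℂ) • v) d) : ℝ) : ℂ) := fun d v => by
    have e1 : (coef η c d : ℂ) * cv v (c + d) = cv ((Real.sqrt η : ℂ) • v) c
        * cv ((Real.sqrt (1 - η) : ℂ) • v) d := coef_mul_cv h0 h1 v c d
    have e2 : (coef η c' d : ℂ) * cv v (c' + d) = cv ((Real.sqrt η : ℂ) • v) c'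
        * cv ((Real.sqrt (1 - η) : ℂ) • v) d := coef_mul_cv h0 h1 v c' d
    have e2' := congrArg conj e2
    simp only [map_mul, Complex.conj_ofReal] at e2'
    rw [← Complex.mul_conj]
    push_cast
    linear_combination ((coef η c' d : ℂ) * conj (cv v (c' + d))) * e1
      + (cv ((Real.sqrt η : ℂ) • v) c * cv ((Real.sqrt (1 - η) : ℂ) • v) d) * e2'
  simp only [outTerm_vacuum h0 h1, hent, ← integral_const_mul, e]
  refine hasSum_integral_of_dominated_convergence
    (fun d v => Complex.normSq (cv ((Real.sqrt (1 - η) : ℂ) • v) d))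
    (fun d => ?_) (fun d => Eventually.of_forall fun v => ?_)
    (Eventually.of_forall fun v => (hasSum_normSq_cv _).summable) ?_
    (Eventually.of_forall fun v => ?_)
  · refine Continuous.aestronglyMeasurable ?_
    have hk : ∀ (r : ℂ) (x : Idx n), Continuous fun v : Fin n → ℂ => cv (r • v) x := fun r x =>
      (continuous_cv x).comp (continuous_const_smul r)
    exact ((hk _ c).mul (Complex.continuous_conj.comp (hk _ c'))).mul
      (Complex.continuous_ofReal.comp (Complex.continuous_normSq.comp (hk _ d)))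
  · rw [norm_mul, Complex.norm_real, Real.norm_of_nonneg (Complex.normSq_nonneg _)]
    exact mul_le_of_le_one_left (Complex.normSq_nonneg _) (norm_cv_mul_le _ _ _)
  · exact (integrable_const (1 : ℝ)).congr
      (Eventually.of_forall fun v => (hasSum_normSq_cv _).tsum_eq.symm)
  · simpa using (Complex.hasSum_ofReal.2 (hasSum_normSq_cv ((Real.sqrt (1 - η) : ℂ) • v))).mul_left
      (cv ((Real.sqrt η : ℂ) • v) c * conj (cv ((Real.sqrt η : ℂ) • v) c'))

theorem integral_simple (s : SimpleFunc (Fin n → ℂ) (Fin n → ℂ)) (G : (Fin n → ℂ) → ℂ) :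
    ∫ v, G (s v) ∂μ = ∑ x : {x // x ∈ s.range.filter fun x => 0 < μ.real (s ⁻¹' {x})},
      ((μ.real (s ⁻¹' {x.1}) : ℝ) : ℂ) * G x.1 := by
  classical
  have e : ∀ v, G (s v) = ∑ x ∈ s.range, (s ⁻¹' {x}).indicator (fun _ => G x) v := fun v => by
    rw [Finset.sum_eq_single (s v)]
    · simp
    · intro x _ hx
      exact Set.indicator_of_notMem (by simpa using Ne.symm hx) _
    · intro h; exact absurd (SimpleFunc.mem_range_self s v) h
  simp only [e]
  rw [integral_finsetSum _ fun x _ => (integrable_const _).indicator (s.measurableSet_fiber x)]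
  simp only [integral_indicator_const _ (s.measurableSet_fiber _), Complex.real_smul]
  rw [Finset.sum_coe_sort (s.range.filter fun x => 0 < μ.real (s ⁻¹' {x}))
    fun x => ((μ.real (s ⁻¹' {x}) : ℝ) : ℂ) * G x]
  refine (Finset.sum_filter_of_ne fun x _ h => measureReal_nonneg.lt_of_ne fun h' => h ?_).symm
  simp [← h']

/-- Each discretisation obeys the bound. -/
theorem simple_bound (hn : 0 < n) (s : SimpleFunc (Fin n → ℂ) (Fin n → ℂ)) {η N : ℝ} (h0 : 0 < η)
    (h1 : η ≤ 1) (hN : 0 < N) {F F' : Finset (Idx n)} {R : ℝ}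
    (hin : n * g N ≤ nent (Matrix.of fun a b : F => ∫ v, cv (s v) a * conj (cv (s v) b) ∂μ)
      - (1 - ∑ a ∈ F, (∫ v, cv (s v) a * conj (cv (s v) a) ∂μ).re))
    (hR : ∀ B : Finset (Idx n), F' ⊆ B → ∑ a ∈ B \ F', ((photons a : ℝ)
      * (∫ v, cv ((Real.sqrt η : ℂ) • s v) a * conj (cv ((Real.sqrt η : ℂ) • s v) a) ∂μ).re
      + Real.exp (-(photons a : ℝ))) ≤ R) :
    n * g (η * N) ≤ nent (Matrix.of fun a b : F' =>
      ∫ v, cv ((Real.sqrt η : ℂ) • s v) a * conj (cv ((Real.sqrt η : ℂ) • s v) b) ∂μ) + R := by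
  classical
  obtain ⟨P, eP⟩ : ∃ P : Finset (Fin n → ℂ), P = s.range.filter fun x => 0 < μ.real (s ⁻¹' {x}) := ⟨_, rfl⟩
  obtain ⟨w, ew⟩ : ∃ w : P → ℝ, w = fun x => μ.real (s ⁻¹' {x.1}) := ⟨_, rfl⟩
  obtain ⟨z, ez⟩ : ∃ z : Fin n → P → ℂ, z = fun k x => x.1 k := ⟨_, rfl⟩
  have hw : ∀ x, 0 < w x := fun x => by
    have h := x.2
    simp only [eP, Finset.mem_filter] at h
    rw [ew]
    exact h.2
  have hint : ∀ G : (Fin n → ℂ) → ℂ, ∫ v, G (s v) ∂μ = ∑ x : P, (w x : ℂ) * G x.1 := fun G => by
    subst eP ew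
    exact integral_simple s G
  have hsum : ∑ x, w x = 1 := by
    have h := hint fun _ => 1
    simp at h
    exact_mod_cast h.symm
  have hz : Function.Injective fun l k => z k l := fun l m h => by
    subst ez
    exact Subtype.ext h
  have e0 : Classical.amp z 0 = z := by funext k l; simp [Classical.amp]
  have eT : Classical.amp z (-Real.log η) = fun k l => (Real.sqrt η : ℂ) * z k l := by
    funext k l
    simp only [Classical.amp, neg_neg]
    rw [Real.exp_half, Real.exp_log h0]
  have hi : ∀ a b, mixEntry w (Classical.amp z 0) a b = ∫ v, cv (s v) a * conj (cv (s v) b) ∂μ := fun a b => by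
    rw [e0, mixEntry, hint fun v => cv v a * conj (cv v b), ez]
  have ho : ∀ a b, mixEntry w (Classical.amp z (-Real.log η)) a b
      = ∫ v, cv ((Real.sqrt η : ℂ) • s v) a * conj (cv ((Real.sqrt η : ℂ) • s v) b) ∂μ := fun a b => by
    rw [eT, mixEntry, hint fun v => cv ((Real.sqrt η : ℂ) • v) a * conj (cv ((Real.sqrt η : ℂ) • v) b), ez]
    rfl
  have hlow := gram_ge_corner (fun x => (hw x).le) hsum z 0 F
  simp only [mixMat, hi] at hlow
  have hflow := gram_flow_bound hn hw hsum z hz hN (hin.trans hlow) (T := -Real.log η)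
    (neg_nonneg.2 (Real.log_nonpos h0.le h1))
  rw [neg_neg, Real.exp_log h0, mul_comm N η] at hflow
  have hhigh := gram_le_corner (fun x => (hw x).le) z (-Real.log η) F' (R := R)
    (fun B hB => by simp only [ho]; exact hR B hB)
  simp only [mixMat, ho] at hhigh
  linarith

omit [IsProbabilityMeasure μ] in
theorem exists_approx (n : ℕ) : ∃ s : ℕ → SimpleFunc (Fin n → ℂ) (Fin n → ℂ),
    (∀ v, Tendsto (fun m => s m v) atTop (𝓝 v)) ∧ ∀ m v, sq2 (s m v) ≤ 4 * n * sq2 v := by
  refine ⟨fun m => SimpleFunc.approxOn id measurable_id Set.univ 0 (Set.mem_univ _) m, fun v => ?_,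
    fun m v => ?_⟩
  · exact SimpleFunc.tendsto_approxOn measurable_id (Set.mem_univ _) (by simp)
  · have h := SimpleFunc.norm_approxOn_zero_le measurable_id (s := Set.univ) (Set.mem_univ (0 : Fin n → ℂ)) v m
    refine (sq2_le_norm_sq _).trans ?_
    have h2 := (pow_le_pow_left₀ (norm_nonneg _) h 2).trans_eq
      (show (‖id v‖ + ‖id v‖) ^ 2 = 4 * ‖v‖ ^ 2 by rw [id]; ring)
    calc (n : ℝ) * _ ≤ n * (4 * ‖v‖ ^ 2) := mul_le_mul_of_nonneg_left h2 (Nat.cast_nonneg _)
      _ ≤ n * (4 * sq2 v) := by gcongr; exact norm_sq_le_sq2 v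
      _ = 4 * n * sq2 v := by ring

theorem tendsto_nent_of_entries {F : Finset (Idx n)} {A : ℕ → Matrix F F ℂ} {L : Matrix F F ℂ}
    (hA : ∀ m, (A m).PosSemidef) (hL : L.PosSemidef)
    (h : ∀ a b, Tendsto (fun m => A m a b) atTop (𝓝 (L a b))) :
    Tendsto (fun m => nent (A m)) atTop (𝓝 (nent L)) := by
  have hcont := continuous_nent (fun x : {M : Matrix F F ℂ // M.PosSemidef} => x.1)
    continuous_subtype_val fun x => x.2
  obtain ⟨B, eB⟩ : ∃ B : ℕ → {M : Matrix F F ℂ // M.PosSemidef}, ∀ m, (B m).1 = A m :=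
    ⟨fun m => ⟨_, hA m⟩, fun m => rfl⟩
  have hlim : Tendsto A atTop (𝓝 L) := tendsto_pi_nhds.2 fun a => tendsto_pi_nhds.2 fun b => h a b
  have hB : Tendsto B atTop (𝓝 ⟨L, hL⟩) := tendsto_subtype_rng.2 (hlim.congr fun m => (eB m).symm)
  exact ((hcont.tendsto _).comp hB).congr fun m => congrArg nent (eB m)

theorem simple_posSemidef (s : SimpleFunc (Fin n → ℂ) (Fin n → ℂ)) (r : ℂ) (F : Finset (Idx n)) :
    (Matrix.of fun a b : F => ∫ v, cv (r • s v) a * conj (cv (r • s v) b) ∂μ).PosSemidef := by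
  classical
  have e : (Matrix.of fun a b : F => ∫ v, cv (r • s v) a * conj (cv (r • s v) b) ∂μ)
      = mixMat (fun x : {x // x ∈ s.range.filter fun x => 0 < μ.real (s ⁻¹' {x})} => μ.real (s ⁻¹' {x.1}))
        (fun k x => r * x.1 k) F := by
    ext a b
    simp only [mixMat, Matrix.of_apply, mixEntry]
    rw [integral_simple s fun v => cv (r • v) a * conj (cv (r • v) b)]
    rfl
  rw [e]
  exact mixMat_posSemidef (fun x => measureReal_nonneg) _ F

/-- EPnI with a vacuum second input for probability P-distributions. -/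
theorem epni_measure {η : ℝ} (h0 : 0 ≤ η) (h1 : η ≤ 1) {ρ ρC : Op n} (hρ : IsState ρ)
    (hE : FinitePhotons ρ) (hent : ∀ a b, entry ρ a b = ∫ v, cv v a * conj (cv v b) ∂μ)
    (hC : IsOutput η ρ (vacuum n) ρC) {N : ℝ} (hN : 0 ≤ N)
    (hS : ENNReal.ofReal (n * g N) ≤ entropy ρ) : ENNReal.ofReal (n * g (η * N)) ≤ entropy ρC := by
  classical
  rcases (mul_nonneg h0 hN).eq_or_lt with hz | hz
  · simp [← hz, g_zero]
  rcases Nat.eq_zero_or_pos n with hn | hn
  · subst hn; simp
  have hη : 0 < η := pos_of_mul_pos_left hz hN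
  have hNp : 0 < N := pos_of_mul_pos_right hz h0
  have hEC := finitePhotons_output h0 h1 hρ hE hC
  obtain ⟨SA, hSA0, eSA, hSA⟩ := tendsto_comp hρ hE
  obtain ⟨SC, hSC0, eSC, hSC⟩ := tendsto_comp hC.1 hEC
  rw [eSA, ENNReal.ofReal_le_ofReal_iff hSA0] at hS
  rw [eSC, ENNReal.ofReal_le_ofReal_iff hSC0]
  obtain ⟨s, hs, hsb⟩ := exists_approx n
  have hsq := integrable_sq2 hρ hE hent
  have hCent := measure_output h0 h1 hent hC
  have hcf : ∀ (r : ℂ) (f : (Fin n → ℂ) → (Fin n → ℂ)), Measurable f → Measurable fun v => r • f v :=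
    fun r f hf => hf.const_smul r
  have hentry : ∀ (r : ℂ) (a b : Idx n),
      Tendsto (fun m => ∫ v, cv (r • s m v) a * conj (cv (r • s m v) b) ∂μ) atTop
        (𝓝 (∫ v, cv (r • v) a * conj (cv (r • v) b) ∂μ)) := fun r a b => by
    refine tendsto_integral_of_dominated_convergence (fun _ => 1)
      (fun m => (integrable_cv_pair (hcf r _ (s m).measurable) a b).1) (integrable_const 1)
      (fun m => Eventually.of_forall fun v => norm_cv_mul_le _ a b) (Eventually.of_forall fun v => ?_)
    have hv : Tendsto (fun m => r • s m v) atTop (𝓝 (r • v)) := (hs v).const_smul r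
    exact (((continuous_cv a).tendsto _).comp hv).mul
      ((Complex.continuous_conj.tendsto _).comp (((continuous_cv b).tendsto _).comp hv))
  have key : ∀ N', 0 < N' → N' < N → n * g (η * N') ≤ SC := by
    intro N' hN' hlt
    have hlt' : n * g N' < SA :=
      lt_of_lt_of_le (mul_lt_mul_of_pos_left (g_strictMono hN'.le hN hlt) (Nat.cast_pos.2 hn)) hS
    have htr : Tendsto (fun F : Finset (Idx n) => ∑ a ∈ F, (entry ρ a a).re) atTop (𝓝 1) := hρ.2
    have hd : Tendsto (fun F => nent (Fock.comp ρ F) - (1 - ∑ a ∈ F, (entry ρ a a).re)) atTop (𝓝 SA) := by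
      simpa using hSA.sub (htr.const_sub 1)
    obtain ⟨F, hF⟩ := (hd.eventually_const_lt hlt').exists
    have hA : Tendsto (fun m => nent (Matrix.of fun a b : F => ∫ v, cv (s m v) a * conj (cv (s m v) b) ∂μ)
        - (1 - ∑ a ∈ F, (∫ v, cv (s m v) a * conj (cv (s m v) a) ∂μ).re)) atTop
        (𝓝 (nent (Fock.comp ρ F) - (1 - ∑ a ∈ F, (entry ρ a a).re))) := by
      have he : ∀ a b, Tendsto (fun m => ∫ v, cv (s m v) a * conj (cv (s m v) b) ∂μ) atTop
          (𝓝 (entry ρ a b)) := fun a b => by simpa [hent] using hentry 1 a b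
      refine (tendsto_nent_of_entries (fun m => ?_) (comp_posSemidef hρ.1 F) fun a b => he a b).sub
        ((tendsto_finsetSum F fun a _ => (Complex.continuous_re.tendsto _).comp (he a a)).const_sub 1)
      have h := simple_posSemidef (μ := μ) (s m) 1 F
      simp only [one_smul] at h
      exact h
    obtain ⟨c, ec⟩ : ∃ c : ℂ, c = (Real.sqrt η : ℂ) := ⟨_, rfl⟩
    have hdC : ∀ a, (entry ρC a a).re = ∫ v, Complex.normSq (cv (c • v) a) ∂μ := fun a => by
      rw [hCent, ec, integral_cv_diag (fun v => (Real.sqrt η : ℂ) • v) a, Complex.ofReal_re]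
    obtain ⟨C, eC⟩ : ∃ C : ℝ, C = ∑' a : Idx n, Real.exp (-(photons a : ℝ)) := ⟨_, rfl⟩
    have hexp : HasSum (fun a : Idx n => Real.exp (-(photons a : ℝ))) C := eC ▸ (summable_exp_photons n).hasSum
    obtain ⟨W, eW⟩ : ∃ W : Idx n → ℝ, W = fun a =>
        (photons a : ℝ) * (entry ρC a a).re + Real.exp (-(photons a : ℝ)) := ⟨_, rfl⟩
    have hW : HasSum W ((∫ v, sq2 (c • v) ∂μ) + C) := by
      rw [eW]
      simp only [hdC]
      refine (hasSum_photons_integral (hcf c _ measurable_id) ?_).add hexp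
      simp only [id_eq, sq2_smul]
      exact hsq.const_mul _
    refine le_of_forall_pos_le_add fun ε hε => ?_
    obtain ⟨F', hF1, hF2⟩ := ((hW.eventually_const_lt
      (show ((∫ v, sq2 (c • v) ∂μ) + C) - ε / 3 < (∫ v, sq2 (c • v) ∂μ) + C by linarith)).and
      (hSC.eventually_lt_const (show SC < SC + ε / 3 by linarith))).exists
    have hB : Tendsto (fun m => nent (Matrix.of fun a b : F' =>
        ∫ v, cv (c • s m v) a * conj (cv (c • s m v) b) ∂μ)) atTop (𝓝 (nent (Fock.comp ρC F'))) :=
      tendsto_nent_of_entries (fun m => simple_posSemidef (μ := μ) (s m) c F') (comp_posSemidef hC.1.1 F')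
        fun a b => by simpa [Fock.comp, hCent, ec] using hentry c a b
    obtain ⟨R, eR⟩ : ∃ R : ℕ → ℝ, R = fun m => (∫ v, sq2 (c • s m v) ∂μ) + C
        - ∑ a ∈ F', ((photons a : ℝ) * (∫ v, cv (c • s m v) a * conj (cv (c • s m v) a) ∂μ).re
          + Real.exp (-(photons a : ℝ))) := ⟨_, rfl⟩
    have hbound : ∀ m v, sq2 (c • s m v) ≤ Complex.normSq c * (4 * n * sq2 v) := fun m v => by
      rw [sq2_smul]
      exact mul_le_mul_of_nonneg_left (hsb m v) (Complex.normSq_nonneg _)
    have hRlim : Tendsto R atTop (𝓝 ((∫ v, sq2 (c • v) ∂μ) + C - ∑ a ∈ F', W a)) := by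
      rw [eR, eW]
      refine (Tendsto.add_const C (tendsto_integral_of_dominated_convergence
        (fun v => Complex.normSq c * (4 * n * sq2 v))
        (fun m => (continuous_sq2.measurable.comp (hcf c _ (s m).measurable)).aestronglyMeasurable)
        ((hsq.const_mul _).const_mul _) (fun m => Eventually.of_forall fun v => ?_)
        (Eventually.of_forall fun v => ?_))).sub
        (tendsto_finsetSum F' fun a _ => ((((Complex.continuous_re.tendsto _).comp
          (by simpa [hCent, ec] using hentry c a a)).const_mul (photons a : ℝ)).add_const _))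
      · rw [Function.comp_apply, Real.norm_of_nonneg (sq2_nonneg _)]
        exact hbound m v
      · exact (continuous_sq2.tendsto _).comp ((hs v).const_smul c)
    obtain ⟨m, hm1, hm2, hm3⟩ := ((hA.eventually_const_lt hF).and
      ((hB.eventually_lt_const (show nent (Fock.comp ρC F') < SC + ε / 3 from hF2)).and
      (hRlim.eventually_lt_const (show (∫ v, sq2 (c • v) ∂μ) + C - ∑ a ∈ F', W a < ε / 3 by linarith)))).exists
    have hsum : HasSum (fun a : Idx n => (photons a : ℝ)
        * (∫ v, cv (c • s m v) a * conj (cv (c • s m v) a) ∂μ).re + Real.exp (-(photons a : ℝ)))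
        ((∫ v, sq2 (c • s m v) ∂μ) + C) := by
      simp only [integral_cv_diag (fun v => c • s m v), Complex.ofReal_re]
      refine (hasSum_photons_integral (hcf c _ (s m).measurable) ?_).add hexp
      exact (((hsq.const_mul _).const_mul _).mono'
        (continuous_sq2.measurable.comp (hcf c _ (s m).measurable)).aestronglyMeasurable
        (Eventually.of_forall fun v => by rw [Real.norm_of_nonneg (sq2_nonneg _)]; exact hbound m v))
    have h := simple_bound (μ := μ) hn (s m) (F' := F') (R := R m) hη h1 hN' hm1.le fun B hB' => by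
      have hpos : ∀ a, 0 ≤ (photons a : ℝ)
          * (∫ v, cv (c • s m v) a * conj (cv (c • s m v) a) ∂μ).re + Real.exp (-(photons a : ℝ)) := fun a => by
        rw [integral_cv_diag (fun v => c • s m v), Complex.ofReal_re]
        exact add_nonneg (mul_nonneg (Nat.cast_nonneg _) (integral_nonneg fun v => Complex.normSq_nonneg _))
          (Real.exp_pos _).le
      have hle := sum_le_hasSum B (fun a _ => hpos a) hsum
      rw [← Finset.sum_sdiff hB', ec] at hle
      rw [eR, ec]
      linarith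
    rw [← ec] at h
    linarith
  have hlim : Tendsto (fun N' => (n : ℝ) * g (η * N')) (𝓝[<] N) (𝓝 (n * g (η * N))) :=
    ((continuous_const.mul (continuous_g.comp (continuous_const.mul continuous_id))).tendsto N).mono_left
      nhdsWithin_le_nhds
  exact le_of_tendsto hlim (by
    filter_upwards [Ioo_mem_nhdsLT hNp] with x hx using key x hx.1 hx.2)

end Vale.Agent.P369.Classical
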